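import Vale.Agent.P045.Cert

/-!
Computed certificate data: r=4, matching bound 2, cover budget 6, 251 states.
-/

namespace Vale.Agent.P045.R4N2

open Vale.Agent.P045.Cert

/-- The states. -/
def states : List (List (List ℕ)) := [
[[0,0,0,0],[1,1,1,1],[2,2,2,0],[3,3,1,2],[0,2,3,3],[4,4,3,0],[0,4,2,4],[1,5,4,2],[5,5,1,5],[0,0,5,0],[6,1,1,2]],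
[[0,0,0,0],[1,1,1,1],[2,2,2,0],[3,3,1,2],[0,2,3,3],[4,4,3,0],[0,4,2,4],[2,0,3,4],[1,5,4,2],[5,5,1,5],[6,4,3,0],[1,1,1,6]],
[[0,0,0,0],[1,1,1,1],[2,2,2,0],[3,3,1,2],[0,2,3,3],[4,4,3,0],[0,4,2,4],[2,0,3,4],[1,5,4,2],[5,5,1,5],[6,4,3,0],[1,1,1,3]],
[[0,0,0,0],[1,1,1,1],[2,2,2,0],[3,3,1,2],[0,2,3,3],[4,4,3,0],[0,4,2,4],[2,0,3,4],[5,5,1,5],[6,4,3,0],[3,5,1,3]],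
[[0,0,0,0],[1,1,1,1],[2,2,2,0],[3,3,1,2],[0,2,3,3],[4,4,3,0],[0,4,2,4],[2,0,3,4],[1,5,4,2],[5,5,1,5],[0,0,5,0],[3,1,4,5],[6,4,3,0]],
[[0,0,0,0],[1,1,1,1],[2,2,2,0],[3,3,1,2],[0,2,3,3],[4,4,3,0],[0,4,2,4],[5,5,1,5],[0,0,4,0],[6,5,1,5]],
[[0,0,0,0],[1,1,1,1],[2,2,2,0],[3,3,1,2],[0,2,3,3],[4,4,3,0],[0,4,2,4],[2,0,3,4],[1,5,4,2],[5,5,1,5],[0,0,5,0],[3,1,4,5]],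
[[0,0,0,0],[1,1,1,1],[2,2,2,0],[3,3,1,2],[0,2,3,3],[4,4,3,0],[0,4,2,4],[2,0,3,4],[1,5,4,2],[5,5,1,5],[0,0,5,0]],
[[0,0,0,0],[1,1,1,1],[2,2,2,0],[3,3,1,2],[0,2,3,3],[4,4,3,0],[0,4,2,4],[2,0,3,4],[1,5,4,2],[5,5,1,5],[1,5,5,2],[4,0,2,3]],
[[0,0,0,0],[1,1,1,1],[2,2,2,0],[3,3,1,2],[0,2,3,3],[4,4,3,0],[0,4,2,4],[2,0,3,4],[1,5,4,2],[5,5,1,5],[1,5,5,2],[4,2,0,4]],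
[[0,0,0,0],[1,1,1,1],[2,2,2,0],[3,3,1,2],[0,2,3,3],[4,4,3,0],[0,4,2,4],[2,0,3,4],[1,5,4,2],[5,5,1,5],[1,5,5,2]],
[[0,0,0,0],[1,1,1,1],[2,2,2,0],[3,3,1,2],[0,2,3,3],[4,4,3,0],[0,4,2,4],[2,0,3,4],[1,5,4,2],[5,5,1,5],[3,5,5,1]],
[[0,0,0,0],[1,1,1,1],[2,2,2,0],[3,3,1,2],[0,2,3,3],[4,4,3,0],[0,4,2,4],[2,0,3,4],[1,5,4,2],[5,5,1,5],[5,1,5,2]],
[[0,0,0,0],[1,1,1,1],[2,2,2,0],[3,3,1,2],[0,2,3,3],[4,4,3,0],[0,4,2,4],[2,0,3,4],[1,5,4,2],[5,5,1,5]],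
[[0,0,0,0],[1,1,1,1],[2,2,2,0],[3,3,1,2],[0,2,3,3],[4,4,3,0],[0,4,2,4],[2,0,3,4],[1,5,4,2],[0,2,3,5],[0,0,5,0],[5,1,2,2]],
[[0,0,0,0],[1,1,1,1],[2,2,2,0],[3,3,1,2],[0,2,3,3],[4,4,3,0],[0,4,2,4],[2,0,3,4],[1,5,4,2],[0,2,3,5],[0,0,5,0],[5,1,4,2]],
[[0,0,0,0],[1,1,1,1],[2,2,2,0],[3,3,1,2],[0,2,3,3],[4,4,3,0],[0,4,2,4],[2,0,3,4],[1,5,4,2],[0,2,3,5],[0,0,5,0],[5,3,1,2]],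
[[0,0,0,0],[1,1,1,1],[2,2,2,0],[3,3,1,2],[0,2,3,3],[4,4,3,0],[0,4,2,4],[2,0,3,4],[1,5,4,2],[0,2,3,5],[5,3,4,1]],
[[0,0,0,0],[1,1,1,1],[2,2,2,0],[3,3,1,2],[0,2,3,3],[4,4,3,0],[0,4,2,4],[2,0,3,4],[1,5,4,2],[4,1,5,2]],
[[0,0,0,0],[1,1,1,1],[2,2,2,0],[3,3,1,2],[0,2,3,3],[4,4,3,0],[0,4,2,4],[2,0,3,4],[1,5,4,2],[0,2,3,5],[4,1,2,2]],
[[0,0,0,0],[1,1,1,1],[2,2,2,0],[3,3,1,2],[0,2,3,3],[4,4,3,0],[0,4,2,4],[2,0,3,4],[1,5,4,2],[0,2,3,5],[0,0,5,0],[4,1,4,2]],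
[[0,0,0,0],[1,1,1,1],[2,2,2,0],[3,3,1,2],[0,2,3,3],[4,4,3,0],[0,4,2,4],[2,0,3,4],[1,5,4,2],[0,2,3,5],[0,0,5,0],[4,3,4,1]],
[[0,0,0,0],[1,1,1,1],[2,2,2,0],[3,3,1,2],[0,2,3,3],[4,4,3,0],[0,4,2,4],[2,0,3,4],[1,5,4,2],[0,2,3,5],[0,0,5,0]],
[[0,0,0,0],[1,1,1,1],[2,2,2,0],[3,3,1,2],[0,2,3,3],[4,4,3,0],[0,4,2,4],[1,5,4,2],[0,2,3,5],[0,1,5,2]],
[[0,0,0,0],[1,1,1,1],[2,2,2,0],[3,3,1,2],[0,2,3,3],[4,4,3,0],[0,4,2,4],[2,0,3,4],[1,5,4,2],[0,2,3,5],[2,1,5,2]],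
[[0,0,0,0],[1,1,1,1],[2,2,2,0],[3,3,1,2],[0,2,3,3],[4,4,3,0],[1,5,4,2],[0,2,3,4],[3,1,5,2]],
[[0,0,0,0],[1,1,1,1],[2,2,2,0],[3,3,1,2],[0,2,3,3],[4,4,3,0],[0,4,2,4],[2,0,3,4],[1,5,4,2],[0,2,3,5]],
[[0,0,0,0],[1,1,1,1],[2,2,2,0],[3,3,1,2],[0,2,3,3],[4,4,3,0],[0,4,2,4],[2,0,3,4],[1,5,4,2],[0,5,1,5]],
[[0,0,0,0],[1,1,1,1],[2,2,2,0],[3,3,1,2],[0,2,3,3],[4,4,3,0],[0,4,2,4],[2,0,3,4],[1,5,4,2],[2,5,1,5]],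
[[0,0,0,0],[1,1,1,1],[2,2,2,0],[3,3,1,2],[0,2,3,3],[4,4,3,0],[0,4,2,4],[2,0,3,4],[1,5,4,2],[3,1,4,5]],
[[0,0,0,0],[1,1,1,1],[2,2,2,0],[3,3,1,2],[0,2,3,3],[4,4,3,0],[0,4,2,4],[2,0,3,4],[1,5,4,2],[3,5,1,5]],
[[0,0,0,0],[1,1,1,1],[2,2,2,0],[3,3,1,2],[0,2,3,3],[4,4,3,0],[0,4,2,4],[2,0,3,4],[1,5,4,2]],
[[0,0,0,0],[1,1,1,1],[2,2,2,0],[3,3,1,2],[0,2,3,3],[4,4,3,0],[0,4,2,4],[2,0,3,4],[0,5,3,0],[5,1,4,2],[3,1,5,5],[6,1,1,5]],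
[[0,0,0,0],[1,1,1,1],[2,2,2,0],[3,3,1,2],[0,2,3,3],[4,4,3,0],[0,4,2,4],[2,0,3,4],[0,5,3,0],[5,1,4,2],[3,1,5,5],[6,1,4,2]],
[[0,0,0,0],[1,1,1,1],[2,2,2,0],[3,3,1,2],[0,2,3,3],[4,4,3,0],[0,4,2,4],[2,0,3,4],[0,5,3,0],[5,1,4,2],[3,1,5,5],[4,1,1,5]],
[[0,0,0,0],[1,1,1,1],[2,2,2,0],[3,3,1,2],[0,2,3,3],[4,4,3,0],[0,4,2,4],[2,0,3,4],[0,5,3,0],[5,1,4,2],[3,1,5,5],[4,1,4,2]],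
[[0,0,0,0],[1,1,1,1],[2,2,2,0],[3,3,1,2],[0,2,3,3],[4,4,3,0],[0,4,2,4],[2,0,3,4],[0,5,3,0],[5,1,4,2],[3,1,5,5],[1,3,4,5]],
[[0,0,0,0],[1,1,1,1],[2,2,2,0],[3,3,1,2],[0,2,3,3],[4,4,3,0],[0,4,2,4],[2,0,3,4],[0,5,3,0],[5,1,4,2],[3,1,5,5]],
[[0,0,0,0],[1,1,1,1],[2,2,2,0],[3,3,1,2],[0,2,3,3],[4,4,3,0],[0,4,2,4],[2,0,3,4],[0,5,3,0],[5,1,4,2],[3,1,0,5]],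
[[0,0,0,0],[1,1,1,1],[2,2,2,0],[3,3,1,2],[0,2,3,3],[4,4,3,0],[0,4,2,4],[2,0,3,4],[0,5,3,0],[5,1,4,2],[1,3,4,5]],
[[0,0,0,0],[1,1,1,1],[2,2,2,0],[3,3,1,2],[0,2,3,3],[4,4,3,0],[0,4,2,4],[2,0,3,4],[0,5,3,0],[5,1,4,2],[3,1,2,5]],
[[0,0,0,0],[1,1,1,1],[2,2,2,0],[3,3,1,2],[0,2,3,3],[4,4,3,0],[0,4,2,4],[2,0,3,4],[0,5,3,0],[5,1,4,2],[3,1,4,5]],
[[0,0,0,0],[1,1,1,1],[2,2,2,0],[3,3,1,2],[0,2,3,3],[4,4,3,0],[0,4,2,4],[2,0,3,4],[0,5,3,0],[5,1,4,2],[1,1,1,5]],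
[[0,0,0,0],[1,1,1,1],[2,2,2,0],[3,3,1,2],[0,2,3,3],[4,4,3,0],[0,4,2,4],[2,0,3,4],[0,5,3,0],[5,1,4,2],[1,3,4,3]],
[[0,0,0,0],[1,1,1,1],[2,2,2,0],[3,3,1,2],[0,2,3,3],[4,4,3,0],[0,4,2,4],[2,0,3,4],[0,5,3,0],[5,1,4,2],[3,1,0,3]],
[[0,0,0,0],[1,1,1,1],[2,2,2,0],[3,3,1,2],[0,2,3,3],[4,4,3,0],[0,4,2,4],[2,0,3,4],[0,5,3,0],[5,1,4,2],[3,1,2,3]],
[[0,0,0,0],[1,1,1,1],[2,2,2,0],[3,3,1,2],[0,2,3,3],[4,4,3,0],[0,4,2,4],[2,0,3,4],[0,5,3,0],[5,1,4,2],[3,1,4,3]],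
[[0,0,0,0],[1,1,1,1],[2,2,2,0],[3,3,1,2],[0,2,3,3],[4,4,3,0],[0,4,2,4],[2,0,3,4],[0,5,3,0],[5,1,4,2]],
[[0,0,0,0],[1,1,1,1],[2,2,2,0],[3,3,1,2],[0,2,3,3],[4,4,3,0],[0,4,2,4],[2,0,3,4],[0,5,3,0],[5,1,0,2],[3,1,4,1]],
[[0,0,0,0],[1,1,1,1],[2,2,2,0],[3,3,1,2],[0,2,3,3],[4,4,3,0],[0,4,2,4],[2,0,3,4],[0,5,3,0],[5,1,0,2],[3,1,4,3]],
[[0,0,0,0],[1,1,1,1],[2,2,2,0],[3,3,1,2],[0,2,3,3],[4,4,3,0],[0,4,2,4],[0,5,3,0],[5,1,0,2],[3,1,4,4]],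
[[0,0,0,0],[1,1,1,1],[2,2,2,0],[3,3,1,2],[0,2,3,3],[4,4,3,0],[0,4,2,4],[2,0,3,4],[0,5,3,0],[5,1,0,2]],
[[0,0,0,0],[1,1,1,1],[2,2,2,0],[3,3,1,2],[0,2,3,3],[4,4,3,0],[0,4,2,4],[0,5,3,0],[5,1,2,2],[2,2,1,0]],
[[0,0,0,0],[1,1,1,1],[2,2,2,0],[3,3,1,2],[0,2,3,3],[4,4,3,0],[0,4,2,4],[2,0,3,4],[0,5,3,0],[5,1,2,2]],
[[0,0,0,0],[1,1,1,1],[2,2,2,0],[3,3,1,2],[0,2,3,3],[4,4,3,0],[0,4,2,4],[2,0,3,4],[0,5,3,0],[5,1,3,2]],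
[[0,0,0,0],[1,1,1,1],[2,2,2,0],[3,3,1,2],[0,2,3,3],[4,4,3,0],[0,4,2,4],[2,0,3,4],[0,5,3,0],[1,3,4,3]],
[[0,0,0,0],[1,1,1,1],[2,2,2,0],[3,3,1,2],[0,2,3,3],[4,4,3,0],[0,4,2,4],[0,5,3,0],[1,3,4,4]],
[[0,0,0,0],[1,1,1,1],[2,2,2,0],[3,3,1,2],[0,2,3,3],[4,4,3,0],[0,4,2,4],[2,0,3,4],[0,5,3,0],[0,0,4,0]],
[[0,0,0,0],[1,1,1,1],[2,2,2,0],[3,3,1,2],[0,2,3,3],[4,4,3,0],[0,4,2,4],[2,0,3,4],[0,5,3,0],[1,3,4,0],[2,4,1,3]],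
[[0,0,0,0],[1,1,1,1],[2,2,2,0],[3,3,1,2],[0,2,3,3],[0,4,2,4],[2,0,3,4],[1,3,4,0],[3,4,3,1]],
[[0,0,0,0],[1,1,1,1],[2,2,2,0],[3,3,1,2],[0,2,3,3],[4,4,3,0],[0,4,2,4],[2,0,3,4],[0,5,3,0],[1,3,4,0]],
[[0,0,0,0],[1,1,1,1],[2,2,2,0],[3,3,1,2],[0,2,3,3],[4,4,3,0],[0,4,2,4],[2,0,3,4],[0,5,3,0]],
[[0,0,0,0],[1,1,1,1],[2,2,2,0],[3,3,1,2],[0,2,3,3],[4,4,3,0],[0,4,2,4],[2,0,3,4],[1,5,0,2],[5,1,4,2]],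
[[0,0,0,0],[1,1,1,1],[2,2,2,0],[3,3,1,2],[0,2,3,3],[4,4,3,0],[0,4,2,4],[2,0,3,4],[1,5,0,2],[2,1,4,2]],
[[0,0,0,0],[1,1,1,1],[2,2,2,0],[3,3,1,2],[0,2,3,3],[4,4,3,0],[0,4,2,4],[2,0,3,4],[1,5,0,2],[3,1,4,2],[5,4,3,0]],
[[0,0,0,0],[1,1,1,1],[2,2,2,0],[3,3,1,2],[0,2,3,3],[4,4,3,0],[0,4,2,4],[2,0,3,4],[1,5,0,2],[3,1,4,2]],
[[0,0,0,0],[1,1,1,1],[2,2,2,0],[3,3,1,2],[0,2,3,3],[4,4,3,0],[0,4,2,4],[2,0,3,4],[1,5,0,2],[4,1,4,2]],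
[[0,0,0,0],[1,1,1,1],[2,2,2,0],[3,3,1,2],[0,2,3,3],[4,4,3,0],[0,4,2,4],[2,0,3,4],[1,5,0,2]],
[[0,0,0,0],[1,1,1,1],[2,2,2,0],[3,3,1,2],[0,2,3,3],[4,4,3,0],[0,4,2,4],[1,5,2,2],[0,0,4,0],[0,4,1,4]],
[[0,0,0,0],[1,1,1,1],[2,2,2,0],[3,3,1,2],[0,2,3,3],[4,4,3,0],[0,4,2,4],[2,0,3,4],[1,5,2,2],[0,0,4,0]],
[[0,0,0,0],[1,1,1,1],[2,2,2,0],[3,3,1,2],[0,2,3,3],[4,4,3,0],[0,4,2,4],[2,0,3,4],[1,5,2,2]],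
[[0,0,0,0],[1,1,1,1],[2,2,2,0],[3,3,1,2],[0,2,3,3],[4,4,3,0],[0,4,2,4],[2,0,3,4],[1,5,3,2],[0,0,4,0],[2,0,1,4]],
[[0,0,0,0],[1,1,1,1],[2,2,2,0],[3,3,1,2],[0,2,3,3],[0,4,2,4],[1,5,3,2],[3,0,2,1]],
[[0,0,0,0],[1,1,1,1],[2,2,2,0],[3,3,1,2],[0,2,3,3],[4,4,3,0],[0,4,2,4],[2,0,3,4],[1,5,3,2],[0,0,4,0]],
[[0,0,0,0],[1,1,1,1],[2,2,2,0],[3,3,1,2],[0,2,3,3],[4,4,3,0],[0,4,2,4],[2,0,3,4],[1,5,3,2]],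
[[0,0,0,0],[1,1,1,1],[2,2,2,0],[3,3,1,2],[0,2,3,3],[4,4,3,0],[0,4,2,4],[2,0,3,4]],
[[0,0,0,0],[1,1,1,1],[2,2,2,0],[3,3,1,2],[0,2,3,3],[4,4,3,0],[0,4,2,4],[0,4,2,5],[0,5,0,0],[5,1,0,2],[2,4,1,3]],
[[0,0,0,0],[1,1,1,1],[2,2,2,0],[3,3,1,2],[0,2,3,3],[4,4,3,0],[0,4,2,4],[0,4,2,5],[0,5,0,0],[5,1,0,2]],
[[0,0,0,0],[1,1,1,1],[2,2,2,0],[3,3,1,2],[0,2,3,3],[4,4,3,0],[0,4,2,4],[2,4,0,3],[0,4,2,5],[0,5,0,0],[5,1,3,2],[0,2,1,3]],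
[[0,0,0,0],[1,1,1,1],[2,2,2,0],[3,3,1,2],[0,2,3,3],[4,4,3,0],[0,4,2,4],[2,4,0,3],[0,4,2,5],[0,5,0,0],[5,1,3,2]],
[[0,0,0,0],[1,1,1,1],[2,2,2,0],[3,3,1,2],[0,2,3,3],[4,4,3,0],[0,4,2,4],[2,4,0,3],[0,4,2,5],[0,5,0,0],[5,4,3,0]],
[[0,0,0,0],[1,1,1,1],[2,2,2,0],[3,3,1,2],[0,2,3,3],[4,4,3,0],[0,4,2,4],[2,4,0,3],[0,4,2,5],[0,5,0,0]],
[[0,0,0,0],[1,1,1,1],[2,2,2,0],[3,3,1,2],[0,2,3,3],[4,4,3,0],[0,4,2,4],[2,4,0,3],[1,5,0,2],[0,4,4,0],[2,4,1,3]],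
[[0,0,0,0],[1,1,1,1],[2,2,2,0],[3,3,1,2],[0,2,3,3],[4,4,3,0],[0,4,2,4],[2,4,0,3],[0,4,2,5],[1,5,0,2],[0,4,4,0]],
[[0,0,0,0],[1,1,1,1],[2,2,2,0],[3,3,1,2],[0,2,3,3],[4,4,3,0],[0,4,2,4],[2,4,0,3],[0,4,2,5],[1,5,0,2]],
[[0,0,0,0],[1,1,1,1],[2,2,2,0],[3,3,1,2],[0,2,3,3],[4,4,3,0],[0,4,2,4],[2,4,0,3],[0,4,2,5],[1,5,2,2],[2,2,1,0]],
[[0,0,0,0],[1,1,1,1],[2,2,2,0],[3,3,1,2],[0,2,3,3],[4,4,3,0],[0,4,2,4],[2,4,0,3],[1,5,2,2],[4,0,1,3]],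
[[0,0,0,0],[1,1,1,1],[2,2,2,0],[3,3,1,2],[0,2,3,3],[4,4,3,0],[0,4,2,4],[2,4,0,3],[0,4,2,5],[1,5,2,2]],
[[0,0,0,0],[1,1,1,1],[2,2,2,0],[3,3,1,2],[0,2,3,3],[4,4,3,0],[0,4,2,4],[2,4,0,3],[1,5,3,2],[0,2,1,3]],
[[0,0,0,0],[1,1,1,1],[2,2,2,0],[3,3,1,2],[0,2,3,3],[4,4,3,0],[0,4,2,4],[2,4,0,3],[0,4,2,5],[1,5,3,2]],
[[0,0,0,0],[1,1,1,1],[2,2,2,0],[3,3,1,2],[0,2,3,3],[4,4,3,0],[0,4,2,4],[2,4,0,3],[0,4,2,5]],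
[[0,0,0,0],[1,1,1,1],[2,2,2,0],[3,3,1,2],[0,2,3,3],[4,4,3,0],[0,4,2,4],[2,4,0,3],[1,3,0,5],[0,4,4,0]],
[[0,0,0,0],[1,1,1,1],[2,2,2,0],[3,3,1,2],[0,2,3,3],[4,4,3,0],[0,4,2,4],[2,4,0,3],[1,3,0,5]],
[[0,0,0,0],[1,1,1,1],[2,2,2,0],[3,3,1,2],[0,2,3,3],[4,4,3,0],[0,4,2,4],[2,4,0,3],[1,3,2,5],[0,4,4,0]],
[[0,0,0,0],[1,1,1,1],[2,2,2,0],[3,3,1,2],[0,2,3,3],[4,4,3,0],[0,4,2,4],[2,4,0,3],[1,3,2,5]],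
[[0,0,0,0],[1,1,1,1],[2,2,2,0],[3,3,1,2],[0,2,3,3],[4,4,3,0],[0,4,2,4],[2,4,0,3]],
[[0,0,0,0],[1,1,1,1],[2,2,2,0],[3,3,1,2],[0,2,3,3],[4,4,3,0],[0,4,2,4]],
[[0,0,0,0],[1,1,1,1],[2,2,2,0],[3,3,1,2],[0,2,3,3],[4,4,3,0],[2,0,3,4]],
[[0,0,0,0],[1,1,1,1],[2,2,2,0],[3,3,1,2],[0,2,3,3],[4,4,3,0],[0,4,2,2],[2,0,3,2],[1,3,0,4]],
[[0,0,0,0],[1,1,1,1],[2,2,2,0],[3,3,1,2],[0,2,3,3],[4,4,3,0],[0,4,2,2],[1,3,2,4],[0,0,4,0],[0,4,1,2]],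
[[0,0,0,0],[1,1,1,1],[2,2,2,0],[3,3,1,2],[0,2,3,3],[4,4,3,0],[0,4,2,2],[1,3,2,4],[0,0,4,0],[4,0,1,3]],
[[0,0,0,0],[1,1,1,1],[2,2,2,0],[3,3,1,2],[0,2,3,3],[4,4,3,0],[0,4,2,2],[2,0,3,2],[1,3,2,4],[0,0,4,0]],
[[0,0,0,0],[1,1,1,1],[2,2,2,0],[3,3,1,2],[0,2,3,3],[4,4,3,0],[0,4,2,2],[2,0,3,2],[1,3,2,4]],
[[0,0,0,0],[1,1,1,1],[2,2,2,0],[3,3,1,2],[0,2,3,3],[4,4,3,0],[0,4,2,2],[2,0,3,2],[3,1,0,4]],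
[[0,0,0,0],[1,1,1,1],[2,2,2,0],[3,3,1,2],[0,2,3,3],[4,4,3,0],[0,4,2,2],[2,0,3,2],[3,1,2,4],[0,0,4,0],[2,2,1,0]],
[[0,0,0,0],[1,1,1,1],[2,2,2,0],[3,3,1,2],[0,2,3,3],[4,4,3,0],[0,4,2,2],[2,0,3,2],[3,1,2,4],[0,0,4,0],[4,0,1,3]],
[[0,0,0,0],[1,1,1,1],[2,2,2,0],[3,3,1,2],[0,2,3,3],[4,4,3,0],[0,4,2,2],[2,0,3,2],[3,1,2,4],[0,0,4,0]],
[[0,0,0,0],[1,1,1,1],[2,2,2,0],[3,3,1,2],[0,2,3,3],[4,4,3,0],[0,4,2,2],[2,0,3,2],[3,1,2,4]],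
[[0,0,0,0],[1,1,1,1],[2,2,2,0],[3,3,1,2],[0,2,3,3],[4,4,3,0],[0,4,2,2],[2,0,3,2]],
[[0,0,0,0],[1,1,1,1],[2,2,1,2],[0,3,2,3],[3,4,2,0],[0,4,3,2],[1,2,0,4],[0,4,4,0],[4,4,1,3]],
[[0,0,0,0],[1,1,1,1],[2,2,2,0],[3,3,1,2],[0,2,3,3],[4,4,3,0],[0,4,2,2],[1,3,0,4],[0,4,4,0]],
[[0,0,0,0],[1,1,1,1],[2,2,2,0],[3,3,1,2],[0,2,3,3],[4,4,3,0],[0,4,2,2],[2,4,0,3],[1,3,0,4]],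
[[0,0,0,0],[1,1,1,1],[2,2,2,0],[3,3,1,2],[0,2,3,3],[4,4,3,0],[0,4,2,2],[2,4,0,3],[1,3,3,4],[0,2,1,3]],
[[0,0,0,0],[1,1,1,1],[2,2,2,0],[3,3,1,2],[0,2,3,3],[4,4,3,0],[0,4,2,2],[2,4,0,3],[1,3,3,4],[2,0,1,2]],
[[0,0,0,0],[1,1,1,1],[2,2,2,0],[3,3,1,2],[0,2,3,3],[4,4,3,0],[0,4,2,2],[2,4,0,3],[1,3,3,4],[2,1,0,2]],
[[0,0,0,0],[1,1,1,1],[2,2,2,0],[3,3,1,2],[0,2,3,3],[4,4,3,0],[0,4,2,2],[2,4,0,3],[1,3,3,4]],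
[[0,0,0,0],[1,1,1,1],[2,2,2,0],[3,3,1,2],[0,2,3,3],[4,4,3,0],[0,4,2,2],[2,4,0,3]],
[[0,0,0,0],[1,1,1,1],[2,2,2,0],[3,3,1,2],[0,2,3,3],[4,4,3,0],[0,4,2,2],[4,0,2,3],[3,1,2,4],[1,3,0,4]],
[[0,0,0,0],[1,1,1,1],[2,2,2,0],[3,3,1,2],[0,2,3,3],[4,4,3,0],[0,4,2,2],[4,0,2,3],[3,1,2,4]],
[[0,0,0,0],[1,1,1,1],[2,2,2,0],[3,3,1,2],[0,2,3,3],[4,4,3,0],[0,4,2,2],[4,0,2,3],[3,1,3,4],[0,0,4,0],[0,2,1,3]],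
[[0,0,0,0],[1,1,1,1],[2,2,2,0],[3,3,1,2],[0,2,3,3],[4,4,3,0],[0,4,2,2],[3,1,3,4],[0,0,4,0],[2,0,1,2]],
[[0,0,0,0],[1,1,1,1],[2,2,2,0],[3,3,1,2],[0,2,3,3],[4,4,3,0],[0,4,2,2],[4,0,2,3],[3,1,3,4],[0,0,4,0]],
[[0,0,0,0],[1,1,1,1],[2,2,2,0],[3,3,1,2],[0,2,3,3],[4,4,3,0],[0,4,2,2],[4,0,2,3],[3,1,3,4]],
[[0,0,0,0],[1,1,1,1],[2,2,2,0],[3,3,1,2],[0,2,3,3],[4,4,3,0],[0,4,2,2],[4,0,2,3]],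
[[0,0,0,0],[1,1,1,1],[2,2,2,0],[3,3,1,2],[0,2,3,3],[4,4,3,0],[0,4,2,2],[1,3,0,4],[0,1,4,0]],
[[0,0,0,0],[1,1,1,1],[2,2,2,0],[3,3,1,2],[0,2,3,3],[0,4,2,2],[1,3,0,4],[0,2,4,0],[4,2,1,2]],
[[0,0,0,0],[1,1,1,1],[2,2,2,0],[3,3,1,2],[0,2,3,3],[4,4,3,0],[0,4,2,2],[1,3,0,4],[0,2,4,0]],
[[0,0,0,0],[1,1,1,1],[2,2,2,0],[3,3,1,2],[0,2,3,3],[4,4,3,0],[0,4,2,2],[4,2,0,2],[1,3,0,4]],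
[[0,0,0,0],[1,1,1,1],[2,2,2,0],[3,3,1,2],[0,2,3,3],[4,4,3,0],[0,4,2,2],[4,2,0,2],[1,3,2,4],[0,2,4,0],[0,4,2,1]],
[[0,0,0,0],[1,1,1,1],[2,2,2,0],[3,3,1,2],[0,2,3,3],[4,4,3,0],[0,4,2,2],[4,2,0,2],[1,3,2,4],[0,2,4,0]],
[[0,0,0,0],[1,1,1,1],[2,2,2,0],[3,3,1,2],[0,2,3,3],[4,4,3,0],[0,4,2,2],[4,2,0,2],[1,3,2,4]],
[[0,0,0,0],[1,1,1,1],[2,2,2,0],[3,3,1,2],[0,2,3,3],[4,4,3,0],[0,4,2,2],[4,2,0,2]],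
[[0,0,0,0],[1,1,1,1],[2,2,2,0],[3,3,1,2],[0,2,3,3],[4,4,3,0],[0,4,2,2]],
[[0,0,0,0],[1,1,1,1],[2,2,2,0],[3,3,1,2],[0,2,3,3],[4,4,3,0],[0,4,2,3],[2,0,3,3]],
[[0,0,0,0],[1,1,1,1],[2,2,2,0],[3,3,1,2],[0,2,3,3],[4,4,3,0],[0,4,2,3],[2,4,0,3]],
[[0,0,0,0],[1,1,1,1],[2,2,2,0],[3,3,1,2],[0,2,3,3],[4,4,3,0],[0,4,2,3]],
[[0,0,0,0],[1,1,1,1],[2,2,2,0],[3,3,1,2],[0,2,3,3],[4,4,3,0],[2,0,3,2]],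
[[0,0,0,0],[1,1,1,1],[2,2,2,0],[3,3,1,2],[0,2,3,3],[4,4,3,0],[2,0,3,3],[1,3,0,4],[2,2,4,0],[2,4,1,3]],
[[0,0,0,0],[1,1,1,1],[2,2,2,0],[3,3,1,2],[0,2,3,3],[4,4,3,0],[2,0,3,3],[1,3,0,4],[2,2,4,0]],
[[0,0,0,0],[1,1,1,1],[2,2,2,0],[3,3,1,2],[0,2,3,3],[4,4,3,0],[2,0,3,3],[1,3,0,4]],
[[0,0,0,0],[1,1,1,1],[2,2,2,0],[3,3,1,2],[0,2,3,3],[4,4,3,0],[2,0,3,3]],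
[[0,0,0,0],[1,1,1,1],[2,2,2,0],[3,3,1,2],[0,2,3,3],[4,4,3,0],[2,4,0,3]],
[[0,0,0,0],[1,1,1,1],[2,2,2,0],[3,3,1,2],[0,2,3,3],[4,4,3,0]],
[[0,0,0,0],[1,1,1,1],[2,2,2,0],[3,3,1,2],[0,2,3,3],[4,1,4,2],[0,0,2,4],[1,4,4,2]],
[[0,0,0,0],[1,1,1,1],[2,2,2,0],[3,3,1,2],[0,2,3,3],[4,1,4,2],[0,0,2,4],[3,4,1,2]],
[[0,0,0,0],[1,1,1,1],[2,2,2,0],[3,3,1,2],[0,2,3,3],[4,1,4,2],[0,0,2,4],[3,4,4,1]],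
[[0,0,0,0],[1,1,1,1],[2,2,2,0],[3,3,1,2],[0,2,3,3],[4,1,4,2],[0,0,2,4]],
[[0,0,0,0],[1,1,1,1],[2,2,1,2],[0,3,2,3],[3,1,3,2],[1,2,3,4],[4,4,0,3],[0,3,4,3],[5,1,3,2]],
[[0,0,0,0],[1,1,1,1],[2,2,2,0],[3,3,1,2],[0,2,3,3],[4,1,4,2],[1,3,4,4],[2,4,0,3],[0,2,5,3]],
[[0,0,0,0],[1,1,1,1],[2,2,2,0],[3,3,1,2],[0,2,3,3],[4,1,4,2],[1,3,4,4],[2,4,0,3]],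
[[0,0,0,0],[1,1,1,1],[2,2,2,0],[3,3,1,2],[0,2,3,3],[4,1,4,2],[1,3,4,4]],
[[0,0,0,0],[1,1,1,1],[2,2,2,0],[3,3,1,2],[0,2,3,3],[4,1,4,2]],
[[0,0,0,0],[1,1,1,1],[2,2,2,0],[3,3,1,2],[0,2,3,3],[4,0,2,3]],
[[0,0,0,0],[1,1,1,1],[2,2,2,0],[3,3,1,2],[4,0,3,0],[1,4,2,2],[1,3,4,1]],
[[0,0,0,0],[1,1,1,1],[2,2,2,0],[3,3,1,2],[0,2,3,3],[4,0,3,0],[1,4,2,2],[1,3,4,3]],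
[[0,0,0,0],[1,1,1,1],[2,2,2,0],[3,3,1,2],[0,2,3,3],[4,0,3,0],[1,4,2,2]],
[[0,0,0,0],[1,1,1,1],[2,2,2,0],[3,3,1,2],[4,0,3,0],[1,4,3,2],[1,3,4,1]],
[[0,0,0,0],[1,1,1,1],[2,2,2,0],[3,3,1,2],[0,2,3,3],[4,0,3,0],[1,4,3,2]],
[[0,0,0,0],[1,1,1,1],[2,2,2,0],[3,3,1,2],[0,2,3,3],[4,0,3,0]],
[[0,0,0,0],[1,1,1,1],[2,2,2,0],[3,3,1,2],[0,2,3,3],[4,1,0,2],[0,3,4,0],[2,3,0,3],[0,2,0,4],[2,1,0,3]],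
[[0,0,0,0],[1,1,1,1],[2,2,2,0],[3,3,1,2],[0,2,3,3],[4,1,0,2],[0,3,4,0],[2,3,0,3],[0,2,0,4]],
[[0,0,0,0],[1,1,1,1],[2,2,2,0],[3,3,1,2],[0,2,3,3],[4,1,0,2],[0,3,4,0],[2,3,0,3],[0,3,2,4]],
[[0,0,0,0],[1,1,1,1],[2,2,2,0],[3,3,1,2],[0,2,3,3],[4,1,0,2],[0,3,4,0],[2,3,0,3],[1,2,0,4]],
[[0,0,0,0],[1,1,1,1],[2,2,2,0],[3,3,1,2],[0,2,3,3],[4,1,0,2],[0,3,4,0],[2,3,0,3],[1,3,0,4]],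
[[0,0,0,0],[1,1,1,1],[2,2,2,0],[3,3,1,2],[0,2,3,3],[4,1,0,2],[0,3,4,0],[2,3,0,3]],
[[0,0,0,0],[1,1,1,1],[2,2,2,0],[3,3,1,2],[0,2,3,3],[4,1,0,2],[0,3,4,0]],
[[0,0,0,0],[1,1,1,1],[2,2,2,0],[3,3,1,2],[0,2,3,3],[4,1,0,2],[1,3,4,2],[0,4,2,1]],
[[0,0,0,0],[1,1,1,1],[2,2,2,0],[3,3,1,2],[0,2,3,3],[4,1,0,2],[1,3,4,2]],
[[0,0,0,0],[1,1,1,1],[2,2,2,0],[3,3,1,2],[0,2,3,3],[4,1,0,2]],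
[[0,0,0,0],[1,1,1,1],[2,2,2,0],[3,3,1,2],[0,2,3,3],[4,1,2,2],[0,4,4,0]],
[[0,0,0,0],[1,1,1,1],[2,2,2,0],[3,3,1,2],[0,2,3,3],[4,1,2,2],[0,0,4,0],[4,4,1,3]],
[[0,0,0,0],[1,1,1,1],[2,2,2,0],[3,3,1,2],[0,2,3,3],[4,1,2,2],[0,0,4,0],[4,2,1,4],[3,4,1,2]],
[[0,0,0,0],[1,1,1,1],[2,2,2,0],[3,3,1,2],[0,2,3,3],[4,1,2,2],[0,0,4,0],[4,2,1,4],[3,2,2,1]],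
[[0,0,0,0],[1,1,1,1],[2,2,2,0],[3,3,1,2],[0,2,3,3],[4,1,2,2],[0,0,4,0],[4,2,1,4]],
[[0,0,0,0],[1,1,1,1],[2,2,2,0],[3,3,1,2],[0,2,3,3],[4,1,2,2],[0,0,4,0],[1,3,2,3]],
[[0,0,0,0],[1,1,1,1],[2,2,2,0],[3,3,1,2],[0,2,3,3],[4,1,2,2],[0,0,4,0],[4,2,1,3]],
[[0,0,0,0],[1,1,1,1],[2,2,2,0],[3,3,1,2],[0,0,3,0],[4,3,1,3]],
[[0,0,0,0],[1,1,1,1],[2,2,2,0],[3,3,1,2],[0,2,3,3],[4,1,2,2],[0,0,4,0]],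
[[0,0,0,0],[1,1,1,1],[2,2,2,0],[3,3,1,2],[0,2,3,3],[4,1,2,2],[0,3,4,0]],
[[0,0,0,0],[1,1,1,1],[2,2,2,0],[3,3,1,2],[0,2,3,3],[4,1,2,2],[0,3,4,1],[2,4,1,2]],
[[0,0,0,0],[1,1,1,1],[2,2,2,0],[3,3,1,2],[0,2,3,3],[4,1,2,2],[0,3,4,1]],
[[0,0,0,0],[1,1,1,1],[2,2,2,0],[3,3,1,2],[0,2,3,3],[4,1,2,2],[1,0,4,2],[0,4,2,1]],
[[0,0,0,0],[1,1,1,1],[2,2,2,0],[3,3,1,2],[0,2,3,3],[4,1,2,2],[1,0,4,2]],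
[[0,0,0,0],[1,1,1,1],[2,2,2,0],[3,3,1,2],[0,2,3,3],[4,1,2,2]],
[[0,0,0,0],[1,1,1,1],[2,2,2,0],[3,3,1,2],[0,2,3,3],[4,1,3,0],[0,4,2,2],[0,2,3,4],[2,0,3,1]],
[[0,0,0,0],[1,1,1,1],[2,2,2,0],[3,3,1,2],[0,2,3,3],[4,1,3,0],[0,4,2,2],[0,2,3,4],[4,2,0,1],[2,0,3,2]],
[[0,0,0,0],[1,1,1,1],[2,2,2,0],[3,3,1,2],[0,2,3,3],[4,1,3,0],[0,4,2,2],[0,2,3,4],[4,2,0,1],[3,4,3,0]],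
[[0,0,0,0],[1,1,1,1],[2,2,2,0],[3,3,1,2],[0,2,3,3],[4,1,3,0],[0,4,2,2],[0,2,3,4],[4,2,0,1]],
[[0,0,0,0],[1,1,1,1],[2,2,2,0],[3,3,1,2],[0,2,3,3],[4,1,3,0],[0,4,2,2],[0,2,3,4]],
[[0,0,0,0],[1,1,1,1],[2,2,2,0],[0,2,3,2],[0,3,2,3],[0,4,2,4]],
[[0,0,0,0],[1,1,1,1],[2,2,2,0],[3,3,1,2],[0,2,3,3],[4,1,3,0],[0,4,2,2]],
[[0,0,0,0],[1,1,1,1],[2,2,2,0],[3,3,1,2],[0,2,3,3],[4,1,3,0]],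
[[0,0,0,0],[1,1,1,1],[2,2,2,0],[3,3,1,2],[0,2,3,3]],
[[0,0,0,0],[1,1,1,1],[2,2,2,0],[3,3,1,2]],
[[0,0,0,0],[1,1,1,1],[2,2,2,0],[3,0,1,2],[2,3,3,1],[0,3,2,3]],
[[0,0,0,0],[1,1,1,1],[2,2,2,0],[3,0,1,2],[2,3,3,1],[3,1,0,3]],
[[0,0,0,0],[1,1,1,1],[2,2,2,0],[3,0,1,2],[2,3,3,1]],
[[0,0,0,0],[1,1,1,1],[2,2,2,0],[3,0,1,2],[3,3,3,1]],
[[0,0,0,0],[1,1,1,1],[2,2,2,0],[3,0,1,2],[1,3,0,2],[1,0,3,3],[0,1,3,2],[0,0,0,1],[1,0,4,2]],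
[[0,0,0,0],[1,1,1,1],[2,2,2,0],[3,0,1,2],[1,0,3,3],[0,0,0,1],[1,2,4,2]],
[[0,0,0,0],[1,1,1,1],[2,2,2,0],[3,0,1,2],[1,3,0,2],[1,0,3,3],[0,1,3,2],[0,0,0,1]],
[[0,0,0,0],[1,1,1,1],[2,2,2,0],[3,0,1,2],[1,3,0,2],[1,0,3,3],[0,1,3,2],[0,3,1,3]],
[[0,0,0,0],[1,1,1,1],[2,2,2,0],[3,0,1,2],[1,3,0,2],[1,0,3,3],[0,1,3,2]],
[[0,0,0,0],[1,1,1,1],[2,2,2,0],[3,0,1,2],[1,3,0,2],[1,0,3,3],[0,3,1,3],[0,0,0,1],[4,0,1,2],[1,4,1,1]],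
[[0,0,0,0],[1,1,1,1],[2,2,2,0],[3,0,1,2],[1,3,0,2],[1,0,3,3],[0,3,1,3],[0,0,0,1],[4,0,1,2]],
[[0,0,0,0],[1,1,1,1],[2,2,2,0],[3,0,1,2],[1,3,0,2],[1,0,3,3],[0,3,1,3],[0,0,0,1]],
[[0,0,0,0],[1,1,1,1],[2,2,2,0],[3,0,1,2],[1,3,0,2],[1,0,3,3],[0,3,1,3]],
[[0,0,0,0],[1,1,1,1],[2,2,2,0],[3,0,1,2],[1,3,0,2],[1,0,3,3],[3,1,0,3],[4,0,0,1],[1,0,4,3]],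
[[0,0,0,0],[1,1,1,1],[2,2,2,0],[3,0,1,2],[1,3,0,2],[1,0,3,3],[3,1,0,3],[1,4,0,2]],
[[0,0,0,0],[1,1,1,1],[2,2,2,0],[3,0,1,2],[1,3,0,2],[1,0,3,3],[3,1,0,3],[1,4,1,3]],
[[0,0,0,0],[1,1,1,1],[2,2,2,0],[3,0,1,2],[1,3,0,2],[1,0,3,3],[3,1,0,3]],
[[0,0,0,0],[1,1,1,1],[2,2,2,0],[3,0,1,2],[1,3,0,2],[1,0,3,3]],
[[0,0,0,0],[1,1,1,1],[2,2,2,0],[3,0,1,2],[1,3,0,2]],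
[[0,0,0,0],[1,1,1,1],[2,2,2,0],[3,0,1,2],[2,3,0,1],[2,0,3,3],[3,2,3,0]],
[[0,0,0,0],[1,1,1,1],[2,2,2,0],[3,0,1,2],[2,3,0,1],[2,0,3,3]],
[[0,0,0,0],[1,1,1,1],[2,2,2,0],[3,0,1,2],[2,3,0,1]],
[[0,0,0,0],[1,1,1,1],[2,2,2,0],[3,0,1,2],[3,3,0,1]],
[[0,0,0,0],[1,1,1,1],[2,2,2,0],[3,0,1,2]],
[[0,0,0,0],[1,1,1,1],[2,2,2,0],[3,0,2,2],[4,3,2,0],[5,0,3,0]],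
[[0,0,0,0],[1,1,1,1],[2,2,2,0],[3,0,2,2],[4,3,2,0],[0,0,3,0]],
[[0,0,0,0],[1,1,1,1],[2,2,2,0],[3,0,2,2],[4,3,2,0],[2,3,0,2],[2,0,2,3]],
[[0,0,0,0],[1,1,1,1],[2,2,2,0],[3,0,2,2],[4,3,2,0],[2,0,3,0],[2,3,0,2]],
[[0,0,0,0],[1,1,1,1],[2,2,2,0],[3,0,2,2],[4,3,2,0],[2,0,3,0]],
[[0,0,0,0],[1,1,1,1],[2,2,2,0],[3,0,2,2],[4,3,2,0],[3,0,3,0]],
[[0,0,0,0],[1,1,1,1],[2,2,2,0],[3,0,2,2],[4,2,0,2],[0,2,2,3]],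
[[0,0,0,0],[1,1,1,1],[2,2,2,0],[3,0,2,2],[4,3,2,0],[3,2,3,0],[4,2,0,2]],
[[0,0,0,0],[1,1,1,1],[2,2,2,0],[3,0,2,2],[4,3,2,0],[3,2,3,0]],
[[0,0,0,0],[1,1,1,1],[2,2,2,0],[3,0,2,2],[4,3,2,0]],
[[0,0,0,0],[1,1,1,1],[2,2,2,0],[3,0,2,2],[0,3,2,3],[0,2,3,2],[2,0,3,3]],
[[0,0,0,0],[1,1,1,1],[2,2,2,0],[3,0,2,2],[0,3,2,3],[0,0,3,0],[0,2,4,2]],
[[0,0,0,0],[1,1,1,1],[2,2,2,0],[3,0,2,2],[0,3,2,3],[0,0,3,0],[0,2,0,2]],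
[[0,0,0,0],[1,1,1,1],[2,2,2,0],[3,0,2,2],[0,3,2,3],[0,0,3,0]],
[[0,0,0,0],[1,1,1,1],[2,2,2,0],[3,0,2,2],[0,3,2,3],[0,2,3,2]],
[[0,0,0,0],[1,1,1,1],[2,2,2,0],[3,0,2,2],[0,3,2,3]],
[[0,0,0,0],[1,1,1,1],[2,2,2,0],[3,0,2,2],[0,3,2,0],[0,2,3,2],[0,0,2,3],[2,0,3,0],[3,2,2,0]],
[[0,0,0,0],[1,1,1,1],[2,2,2,0],[3,0,2,2],[0,3,2,0],[0,2,3,2],[0,0,2,3],[2,0,3,0]],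
[[0,0,0,0],[1,1,1,1],[2,2,2,0],[3,0,2,2],[0,3,2,0],[0,2,3,2],[0,0,2,3]],
[[0,0,0,0],[1,1,1,1],[2,2,2,0],[3,0,2,2],[0,3,2,0],[0,2,3,2]],
[[0,0,0,0],[1,1,1,1],[2,2,2,0],[3,0,2,2],[0,3,2,0],[0,2,0,2]],
[[0,0,0,0],[1,1,1,1],[2,2,2,0],[3,0,2,2],[0,3,2,0],[2,3,0,2]],
[[0,0,0,0],[1,1,1,1],[2,2,2,0],[3,0,2,2],[0,3,2,0]],
[[0,0,0,0],[1,1,1,1],[2,2,2,0],[3,0,2,2],[0,3,2,2],[0,0,3,0]],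
[[0,0,0,0],[1,1,1,1],[2,2,2,0],[3,0,2,2],[0,3,2,2]],
[[0,0,0,0],[1,1,1,1],[2,2,2,0],[3,0,2,2],[2,3,0,2]],
[[0,0,0,0],[1,1,1,1],[2,2,2,0],[3,0,2,2],[2,3,2,0],[0,0,3,0]],
[[0,0,0,0],[1,1,1,1],[2,2,2,0],[3,0,2,2],[2,3,2,0]],
[[0,0,0,0],[1,1,1,1],[2,2,2,0],[3,0,2,2]],
[[0,0,0,0],[1,1,1,1],[2,2,2,0]],
[[0,0,0,0],[1,1,1,1]],
[[0,0,0,0]],
[]
]

/-- The state with a given number. -/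
def tbl (i : ℕ) : List (List ℕ) := states.getD i []

/-- Label bounds, named vertices and copies for each state. -/
def datas : List (List ℕ × List (ℕ × ℕ) × List (ℕ × List ℕ × List (List ℕ))) := [
([7,6,6,6],[(0,0),(0,1),(2,2),(2,1),(2,3),(1,1)],[]),
([7,6,5,7],[(0,0),(0,1),(0,2),(2,1),(1,4),(1,1)],[]),
([7,6,5,6],[(0,0),(0,1),(0,2),(2,1),(1,4),(1,1)],[]),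
([7,6,4,6],[(0,0),(0,1),(0,2),(0,3),(1,4),(2,1)],[]),
([7,6,6,6],[(0,0),(3,1),(3,0),(3,2),(3,4),(3,5)],[(2,[0,1,2,3],[[0,1,2,3,4,5,6],[0,1,2,3,4,5],[0,1,2,3,4],[0,1,2,3,4,5]]),(1,[0,1,2,3],[[0,1,2,3,4,5,6],[0,1,2,3,4,5],[0,1,2,3,4],[0,1,2,3,4,5,6]]),(3,[0,1,2,3],[[0,1,2,3,4,5,6],[0,1,2,3,4,5],[0,1,2,3],[0,1,2,3,4,5]]),(0,[3,1,2,0],[[0,5,3,2,4,1],[0,5,2,3,4,1],[0,1,3,2,4,5],[0,5,3,2,4,1,6]])]),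
([7,6,5,6],[(0,0),(0,1),(2,2),(0,3),(2,3),(2,1)],[]),
([6,6,6,6],[(0,0),(0,1),(0,2),(0,3),(0,4),(0,5)],[(0,[0,1,2,3],[[0,1,2,3,4,5,6],[0,1,2,3,4,5],[0,1,2,3,4,5],[0,1,2,3,4,5]]),(5,[0,1,2,3],[[0,1,2,3,4,5,6],[0,1,2,3,4,5],[0,1,2,3,5],[0,1,2,3,4,5]]),(4,[0,1,2,3],[[0,1,2,3,4,5,6],[0,1,2,3,4,5],[0,1,2,3,4,5],[0,1,2,3,4,5]])]),
([6,6,6,6],[(1,0),(0,1),(3,0),(3,2),(0,0),(1,5)],[(6,[0,1,2,3],[[0,1,2,3,4,5],[0,1,2,3,4,5],[0,1,2,3,4,5],[0,1,2,3,4,5]]),(6,[0,1,2,3],[[0,5,2,1,4,3],[0,5,2,1,4,3],[0,1,2,3,4,5],[0,5,1,3,4,2]])]),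
([6,6,6,6],[(0,0),(0,1),(0,2),(3,2),(0,4),(1,5)],[]),
([6,6,6,6],[(0,0),(0,1),(0,2),(3,2),(0,4),(1,5)],[]),
([6,6,6,6],[(0,0),(0,1),(3,0),(3,2),(0,2),(1,5)],[(8,[0,1,2,3],[[0,1,2,3,4,5],[0,1,2,3,4,5],[0,1,2,3,4,5],[0,1,2,3,4,5]]),(9,[0,1,2,3],[[0,1,2,3,4,5],[0,1,2,3,4,5],[0,1,2,3,4,5],[0,1,2,3,4,5]])]),
([6,6,6,6],[(2,0),(2,1),(2,2),(2,3),(2,4),(2,5)],[(7,[0,1,2,3],[[0,1,2,3,4,5],[0,1,2,3,4,5],[0,1,2,3,4,6],[0,1,2,3,4,5]]),(10,[0,1,2,3],[[0,1,2,3,4,5],[0,1,2,3,4,5],[0,1,2,3,4,6],[0,1,2,3,4,5]]),(10,[0,1,2,3],[[0,3,2,1,4,5],[0,3,2,1,4,5],[0,1,2,3,5,6],[0,2,1,3,4,5]])]),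
([6,6,6,6],[(3,0),(3,1),(3,2),(3,3),(3,4),(3,5)],[(7,[0,1,3,2],[[0,1,2,3,4,5],[2,5,0,3,4,1],[3,4,1,0,2,5],[3,2,4,0,1,6]]),(10,[0,1,3,2],[[0,1,2,3,4,5],[2,5,0,3,4,1],[3,4,1,0,2,5],[3,2,4,0,1,6]]),(10,[0,1,3,2],[[0,5,2,3,4,1],[2,1,0,3,4,5],[3,5,1,0,2,4],[3,2,4,0,5,6]])]),
([6,6,5,6],[(2,0),(2,1),(2,2),(2,3),(0,1),(2,4)],[(7,[0,1,2,3],[[0,1,2,3,4,5],[0,1,2,3,4,5],[0,1,2,3,4,5],[0,1,2,3,4,5]]),(12,[0,1,2,3],[[0,1,2,3,4,5],[0,1,2,3,4,5],[0,1,2,3,4,5],[0,1,2,3,4,5]]),(11,[0,1,2,3],[[0,1,2,3,4,5],[0,1,2,3,4,5],[0,1,2,3,4,5],[0,1,2,3,4,5]])]),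
([6,6,6,6],[(0,0),(1,1),(2,2),(3,2),(2,3),(0,5)],[]),
([6,6,6,6],[(0,0),(2,1),(0,2),(1,4),(2,4),(3,2)],[]),
([6,6,6,6],[(0,0),(2,1),(0,2),(1,4),(3,2),(1,3)],[]),
([6,6,5,6],[(3,0),(3,1),(3,2),(2,3),(3,4),(0,1)],[(13,[0,1,2,3],[[0,1,2,5,4,3],[0,5,2,3,4,1],[0,4,2,3,1],[0,2,1,5,4,3]]),(13,[0,1,2,3],[[0,1,2,5,4,3],[0,5,2,3,4,1],[0,4,2,3,1],[0,2,1,3,4,5]]),(13,[0,1,2,3],[[0,1,2,5,4,3],[0,5,2,3,4,1],[0,4,2,3,1],[0,2,1,3,4,6]]),(13,[0,1,2,3],[[0,1,2,3,4,5],[0,1,2,3,4,5],[0,1,2,3,4],[0,1,2,5,4,3]]),(13,[0,1,2,3],[[0,1,2,3,4,5],[0,1,2,3,4,5],[0,1,2,3,4],[0,1,2,3,4,5]]),(13,[0,1,2,3],[[0,1,2,3,4,5],[0,1,2,3,4,5],[0,1,2,3,4],[0,1,2,3,4,6]])]),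
([5,6,6,5],[(0,0),(0,1),(0,2),(0,3),(0,4),(3,2)],[(13,[0,1,3,2],[[0,1,2,3,5,4],[2,5,0,3,4,1],[3,4,1,0,2,5],[3,2,4,0,1]])]),
([5,6,5,6],[(0,0),(1,1),(2,2),(3,2),(0,4),(2,3)],[]),
([5,6,6,6],[(0,0),(2,1),(0,2),(1,4),(2,4),(3,2)],[]),
([5,6,6,6],[(0,0),(0,1),(0,2),(0,3),(1,4),(0,4)],[(15,[0,1,2,3],[[0,1,2,3,4,5],[0,1,2,3,4,5],[0,1,2,3,4,5],[0,1,2,3,4,5]]),(15,[0,1,3,2],[[0,1,2,3,4,5],[2,5,0,3,4,1],[3,4,1,0,2,5],[3,2,4,0,1,5]]),(16,[0,1,2,3],[[0,1,2,3,4,5],[0,1,2,3,4,5],[0,1,2,3,4,5],[0,1,2,3,4,5]]),(17,[0,1,2,3],[[0,1,2,3,4,5],[0,1,2,3,4,5],[0,1,2,3,4],[0,1,2,3,4,5]])]),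
([5,6,6,6],[(0,0),(2,1),(0,2),(2,3),(0,1),(0,3)],[(18,[0,1,2,3],[[0,1,2,3,4],[0,1,2,3,4,5],[5,1,2,3,4,0],[0,1,2,3,4]]),(13,[0,1,3,2],[[0,1,2,3,4,5],[2,5,0,3,4,1],[3,4,1,5,2,0],[3,2,4,0,1]]),(19,[0,1,2,3],[[0,1,2,3,4],[0,1,2,3,4,5],[0,1,2,3,4],[0,1,2,3,4,5]]),(20,[0,1,2,3],[[0,1,2,3,4],[0,1,2,3,4,5],[0,1,2,3,4,5],[0,1,2,3,4,5]]),(18,[0,1,2,3],[[0,1,2,3,4],[0,1,2,3,4,5],[0,1,2,3,4,5],[0,1,2,3,4]]),(18,[0,1,2,3],[[0,1,2,3,4],[0,1,2,3,4,5],[0,1,2,3,4,6],[0,1,2,3,4]]),(14,[0,1,2,3],[[0,1,2,3,4,5],[0,1,2,3,4,5],[0,1,2,3,4,5],[0,1,2,3,4,5]]),(15,[0,1,2,3],[[0,1,2,3,4,5],[0,1,2,3,4,5],[0,1,2,3,4,5],[0,1,2,3,4,5]]),(13,[0,1,3,2],[[0,1,2,3,4,5],[2,5,0,3,4,1],[3,4,1,0,2,5],[3,2,4,0,1]]),(13,[0,1,3,2],[[0,1,2,3,4,5],[2,5,0,3,4,1],[3,4,1,0,2,6],[3,2,4,0,1]]),(21,[0,1,2,3],[[0,1,2,3,4],[0,1,2,3,4,5],[0,1,2,3,4,5],[0,1,2,3,4,5]]),(17,[0,1,2,3],[[0,1,2,3,4,5],[0,1,2,3,4,5],[0,1,2,3,4],[0,1,2,3,4,5]])]),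
([5,6,6,6],[(0,0),(0,1),(3,0),(0,3),(3,4),(3,2)],[]),
([5,6,6,6],[(0,0),(0,1),(0,2),(0,3),(1,4),(3,2)],[(18,[0,1,2,3],[[0,1,4,3,2],[4,1,2,3,0,5],[2,1,0,3,4,5],[4,1,2,3,0]])]),
([5,6,6,5],[(0,0),(0,1),(1,2),(0,3),(2,3),(3,2)],[]),
([5,6,5,6],[(2,0),(0,1),(2,2),(2,1),(2,3),(2,4)],[(23,[0,1,2,3],[[0,1,2,3,4],[0,1,2,3,4,5],[0,1,2,3,4,5],[0,1,2,3,4,5]]),(22,[0,1,2,3],[[0,1,2,3,4],[0,1,2,3,4,5],[0,1,2,3,4,5],[0,1,2,3,4,5]]),(25,[0,1,2,3],[[0,1,2,3,4],[0,1,2,3,4,5],[0,1,2,3,4,5],[0,1,2,3,5]]),(24,[0,1,2,3],[[0,1,2,3,4],[0,1,2,3,4,5],[0,1,2,3,4,5],[0,1,2,3,4,5]]),(18,[0,1,2,3],[[0,1,2,3,4],[0,1,2,3,4,5],[0,1,2,3,4,5],[0,1,2,3,4]]),(13,[0,1,3,2],[[0,1,2,3,4,5],[2,5,0,3,4,1],[3,4,1,0,2,5],[3,2,4,0,1]]),(17,[2,1,0,3],[[4,1,2,0,3],[4,1,2,5,0,3],[3,1,2,4,0,5],[0,1,2,3,4,5]])]),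
([5,6,5,6],[(0,0),(0,1),(0,2),(0,3),(0,4),(2,1)],[(26,[3,1,0,2],[[0,3,1,4,2,5],[2,3,4,5,0,1],[3,1,2,4,0],[3,2,4,0,1]])]),
([5,6,5,6],[(0,0),(0,1),(0,2),(0,3),(0,4),(2,1)],[(26,[3,1,0,2],[[0,3,1,4,2,5],[2,3,4,5,0,1],[3,1,2,4,0],[3,2,4,0,1]])]),
([5,6,5,6],[(0,0),(0,1),(0,2),(0,3),(0,4),(1,1)],[(13,[0,1,2,3],[[0,1,2,3,4,5],[0,1,2,3,4,5],[0,1,2,3,4],[0,1,2,3,4,5]]),(26,[3,1,0,2],[[0,3,1,4,2,5],[2,3,4,5,0,1],[3,1,2,4,0],[3,2,4,0,1]]),(13,[0,1,2,3],[[0,1,2,5,4,3],[0,5,2,3,4,1],[0,4,2,3,1],[0,2,1,3,4,5]])]),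
([5,6,5,6],[(0,0),(0,1),(0,2),(2,1),(0,4),(0,3)],[(26,[3,1,0,2],[[0,3,1,4,2,5],[2,3,4,5,0,1],[3,1,2,4,0],[3,2,4,0,1]])]),
([5,6,5,5],[(3,0),(0,1),(3,2),(3,3),(3,4),(3,1)],[(26,[0,1,2,3],[[0,1,2,3,4],[0,1,2,3,4,5],[0,1,2,3,4],[0,1,2,3,4,5]]),(27,[0,1,2,3],[[0,1,2,3,4],[0,1,2,3,4,5],[0,1,2,3,4],[0,1,2,3,4,5]]),(29,[0,1,2,3],[[0,1,2,3,4],[0,1,2,3,4,5],[0,1,2,3,4],[0,1,2,3,4,5]]),(28,[0,1,2,3],[[0,1,2,3,4],[0,1,2,3,4,5],[0,1,2,3,4],[0,1,2,3,4,5]]),(30,[0,1,2,3],[[0,1,2,3,4],[0,1,2,3,4,5],[0,1,2,3,4],[0,1,2,3,4,5]]),(18,[0,1,3,2],[[0,1,2,3,4],[2,5,0,3,4,1],[3,4,1,0,2],[3,2,4,0,1,5]]),(13,[0,1,2,3],[[0,1,2,3,4,5],[0,1,2,3,4,5],[0,1,2,3,4],[0,1,2,3,4,5]])]),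
([7,6,6,6],[(0,0),(0,1),(0,2),(2,1),(1,4),(1,1)],[]),
([7,6,6,6],[(0,0),(0,1),(0,2),(0,3),(1,4),(1,1)],[]),
([6,6,6,6],[(0,0),(0,1),(0,2),(2,1),(1,4),(1,1)],[]),
([6,6,6,6],[(0,0),(0,1),(0,2),(0,3),(1,4),(1,1)],[]),
([6,6,6,6],[(0,0),(0,1),(0,2),(0,3),(1,4),(0,5)],[(34,[0,1,2,3],[[0,1,2,3,4,5],[0,1,2,3,4,5],[0,1,2,3,4,5],[0,1,2,3,4,5]]),(32,[0,1,2,3],[[0,1,2,3,4,5,6],[0,1,2,3,4,5],[0,1,2,3,4,5],[0,1,2,3,4,5]]),(35,[0,1,2,3],[[0,1,2,3,4,5],[0,1,2,3,4,5],[0,1,2,3,4,5],[0,1,2,3,4,5]]),(33,[0,1,2,3],[[0,1,2,3,4,5,6],[0,1,2,3,4,5],[0,1,2,3,4,5],[0,1,2,3,4,5]])]),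
([6,6,6,6],[(3,0),(2,1),(2,3),(0,0),(3,2),(0,3)],[(36,[0,1,2,3],[[0,1,2,3,4,5],[0,1,2,3,4,5],[0,1,2,3,4,5],[0,1,2,3,4,5]]),(36,[0,1,2,3],[[0,3,2,5,4,1],[0,1,2,3,4,5],[0,5,2,3,1,4],[0,5,1,3,4,2]])]),
([6,6,5,6],[(2,0),(1,1),(2,2),(2,1),(2,3),(2,4)],[(37,[0,1,2,3],[[0,1,2,3,4,5],[0,1,2,3,4,5],[5,1,2,3,4,0],[0,1,2,3,4,5]])]),
([6,6,5,6],[(1,0),(2,1),(2,2),(2,3),(3,2),(2,4)],[(38,[0,1,2,3],[[0,1,2,3,4,5],[0,1,2,3,4,5],[0,1,2,3,4],[0,1,2,3,4,5]]),(37,[0,1,2,3],[[0,1,2,3,4,5],[0,1,2,3,4,5],[0,1,2,3,4,5],[0,1,2,3,4,5]]),(38,[0,1,2,3],[[0,1,2,5,4,3],[0,3,2,1,4,5],[0,4,2,3,1],[0,5,2,3,4,1]]),(37,[0,1,2,3],[[0,3,2,1,4,5],[0,3,2,1,4,5],[0,1,2,3,5,4],[0,2,1,3,4,5]])]),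
([6,6,5,6],[(0,0),(1,1),(2,2),(0,3),(2,3),(3,5)],[]),
([6,6,5,6],[(0,0),(1,1),(0,2),(2,1),(1,4),(2,4)],[]),
([6,6,5,6],[(0,0),(0,1),(0,2),(2,1),(1,4),(1,1)],[]),
([6,6,5,5],[(3,0),(3,1),(1,3),(3,3),(3,4),(3,2)],[(39,[0,1,2,3],[[0,1,2,3,4,5],[0,1,2,3,4,5],[0,1,2,3,4],[0,1,2,5,4,3]]),(42,[0,1,2,3],[[0,1,2,3,4,5],[0,1,2,3,4,5],[0,1,2,3,4],[0,1,2,3,4,5]]),(41,[0,1,2,3],[[0,1,2,3,4,5],[0,1,2,3,4,5],[0,1,2,3,4],[0,1,2,3,4,5]])]),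
([6,6,5,5],[(3,0),(3,1),(3,2),(3,3),(3,4),(1,1)],[(38,[0,1,2,3],[[0,1,2,3,4,5],[0,1,2,3,4,5],[0,1,2,3,4],[0,1,2,5,4,3]])]),
([6,6,5,5],[(0,0),(1,1),(2,2),(2,1),(2,3),(2,4)],[]),
([6,6,5,5],[(0,0),(1,1),(0,2),(2,1),(1,4),(2,4)],[]),
([6,6,5,5],[(3,0),(2,1),(2,3),(3,4),(3,2),(3,1)],[(43,[0,1,2,3],[[0,1,2,3,4,5],[0,1,2,3,4,5],[0,1,2,3,4],[0,1,2,3,4]]),(39,[0,1,2,3],[[0,1,2,3,4,5],[0,1,2,3,4,5],[0,1,2,3,4],[0,1,2,3,4,5]]),(44,[0,1,2,3],[[0,1,2,3,4,5],[0,1,2,3,4,5],[0,1,2,3,4],[0,1,2,3,4]]),(38,[0,1,2,3],[[0,1,2,3,4,5],[0,1,2,3,4,5],[0,1,2,3,4],[0,1,2,3,4,5]]),(45,[0,1,2,3],[[0,1,2,3,4,5],[0,1,2,3,4,5],[0,1,2,3,4],[0,1,2,3,4]]),(40,[0,1,2,3],[[0,1,2,3,4,5],[0,1,2,3,4,5],[0,1,2,3,4],[0,1,2,3,4,5]]),(46,[0,1,2,3],[[0,1,2,3,4,5],[0,1,2,3,4,5],[0,1,2,3,4],[0,1,2,3,4]]),(41,[0,1,2,3],[[0,1,2,3,4,5],[0,1,2,3,4,5],[0,1,2,3,4],[0,1,2,3,4,5]]),(38,[0,1,3,2],[[0,5,2,3,4,1],[2,1,0,3,4,5],[3,4,1,0,2,5],[3,2,4,0,1]]),(37,[0,1,2,3],[[0,1,2,3,4,5],[0,1,2,3,4,5],[0,1,2,3,4,5],[0,1,2,3,4,5]])]),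
([6,6,5,5],[(0,0),(1,1),(0,2),(3,2),(1,4),(3,1)],[]),
([6,6,5,5],[(3,0),(3,1),(3,2),(3,3),(3,4),(1,1)],[(47,[2,1,3,0],[[4,3,2,0,1],[4,1,0,3,2,5],[3,4,1,0,2],[0,3,4,2,5,1]])]),
([6,6,5,5],[(0,0),(1,1),(3,0),(0,3),(3,4),(2,4)],[]),
([6,6,4,5],[(2,0),(2,1),(3,0),(2,3),(2,2),(3,2)],[(48,[0,1,2,3],[[0,1,2,3,4,5],[0,1,2,3,4,5],[0,1,2,3,4],[0,1,2,3,4]]),(49,[0,1,2,3],[[0,1,2,3,4,5],[0,1,2,3,4,5],[0,1,2,3,4],[0,1,2,3,4]]),(50,[0,1,2,3],[[0,1,2,3,4,5],[0,1,2,3,4,5],[0,1,2,3,4],[0,1,2,3,4]]),(47,[2,1,3,0],[[4,3,2,0,1],[4,1,0,3,2,5],[3,4,1,0,2],[0,5,4,2,3,1]]),(47,[0,1,2,3],[[0,3,2,1,4,5],[0,3,2,1,4,5],[0,1,2,3,4],[0,2,1,3,4]])]),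
([6,6,4,5],[(0,0),(0,1),(2,2),(2,1),(2,3),(1,1)],[]),
([6,6,4,5],[(0,0),(1,1),(2,2),(3,2),(2,3),(0,5)],[(52,[0,1,2,3],[[0,1,2,3,4,5],[0,1,2,3,4,5],[0,1,2,3],[0,1,2,3,4]])]),
([6,6,4,5],[(1,0),(1,1),(2,2),(2,1),(2,3),(0,1)],[(51,[0,1,2,3],[[0,3,2,1,4,5],[0,3,2,1,4,5],[0,1,2,3],[0,2,1,3,4]]),(47,[0,1,2,3],[[0,3,2,1,4,5],[0,3,2,1,4,5],[0,1,2,3,4],[0,2,1,3,4]])]),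
([5,6,5,5],[(3,0),(3,1),(2,1),(3,3),(3,4),(3,2)],[(47,[2,1,3,0],[[4,1,2,0,3],[4,3,0,1,2,5],[3,4,1,0,2],[0,3,4,1,5,2]]),(51,[3,1,2,0],[[0,3,1,4,2],[0,3,4,1,2,5],[0,1,2,3],[0,2,4,1,3,5]]),(53,[3,1,2,0],[[0,3,1,4,2],[0,3,4,1,2,5],[0,1,2,3],[0,2,4,1,3,5]]),(54,[3,1,2,0],[[0,3,1,4,2],[0,3,4,1,2,5],[0,1,2,3],[0,2,4,1,3,5]]),(47,[2,1,3,0],[[4,1,2,0,3],[4,3,0,1,2,5],[3,4,1,0,2],[0,5,4,1,3,2]]),(47,[2,1,3,0],[[4,1,2,0,3],[4,3,0,1,2,5],[3,5,1,0,2],[0,5,4,1,3,2]]),(47,[2,1,3,0],[[4,3,2,0,1],[4,1,0,3,2,5],[3,4,1,0,2],[0,5,4,2,3,1]])]),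
([5,6,5,5],[(0,0),(0,1),(3,0),(1,3),(3,4),(2,4)],[]),
([5,6,5,5],[(3,0),(3,1),(2,1),(2,3),(2,2),(3,2)],[(55,[0,1,2,3],[[0,1,2,3,4],[0,1,2,3,4,5],[4,1,2,3,0],[0,1,2,3,4]]),(56,[0,1,2,3],[[0,1,2,3,4],[0,1,2,3,4,5],[4,1,2,3,0],[0,1,2,3,4]]),(47,[2,1,3,0],[[4,1,2,0,3],[4,3,0,1,2,5],[3,0,1,4,2],[0,5,4,1,3,2]]),(55,[0,1,2,3],[[0,1,2,3,4],[0,1,2,3,4,5],[0,1,2,3,4],[0,1,2,3,4]]),(56,[0,1,2,3],[[0,1,2,3,4],[0,1,2,3,4,5],[0,1,2,3,4],[0,1,2,3,4]]),(47,[2,1,3,0],[[4,1,2,0,3],[4,3,0,1,2,5],[3,4,1,0,2],[0,5,4,1,3,2]]),(55,[0,1,2,3],[[0,1,2,3,4],[0,1,2,3,4,5],[0,1,2,3,5],[0,1,2,3,4]]),(56,[0,1,2,3],[[0,1,2,3,4],[0,1,2,3,4,5],[0,1,2,3,5],[0,1,2,3,4]]),(47,[2,1,3,0],[[4,1,2,0,3],[4,3,0,1,2,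5],[3,5,1,0,2],[0,5,4,1,3,2]]),(55,[0,1,2,3],[[0,3,2,1,4],[0,3,2,1,4,5],[4,1,2,3,0],[0,2,1,3,4]]),(56,[0,1,2,3],[[0,3,2,1,4],[0,3,2,1,4,5],[4,1,2,3,0],[0,2,1,3,4]]),(47,[2,1,3,0],[[4,3,2,0,1],[4,1,0,3,2,5],[3,0,1,4,2],[0,5,4,2,3,1]]),(55,[0,1,2,3],[[0,3,2,1,4],[0,3,2,1,4,5],[0,1,2,3,4],[0,2,1,3,4]]),(56,[0,1,2,3],[[0,3,2,1,4],[0,3,2,1,4,5],[0,1,2,3,4],[0,2,1,3,4]]),(47,[2,1,3,0],[[4,3,2,0,1],[4,1,0,3,2,5],[3,4,1,0,2],[0,5,4,2,3,1]]),(55,[0,1,2,3],[[0,3,2,1,4],[0,3,2,1,4,5],[0,1,2,3,5],[0,2,1,3,4]]),(56,[0,1,2,3],[[0,3,2,1,4],[0,3,2,1,4,5],[0,1,2,3,5],[0,2,1,3,4]]),(47,[2,1,3,0],[[4,3,2,0,1],[4,1,0,3,2,5],[3,5,1,0,2],[0,5,4,2,3,1]])]),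
([5,6,5,5],[(0,0),(0,1),(0,2),(0,3),(1,4),(2,1)],[]),
([4,5,5,5],[(0,0),(0,1),(0,2),(0,3),(3,0),(1,3)],[]),
([5,6,5,5],[(3,0),(0,1),(1,3),(0,0),(3,4),(2,4)],[(58,[0,1,2,3],[[0,1,2,3,4],[0,1,2,3,4,5],[0,1,2,3,4],[0,1,2,3,4]]),(59,[0,1,2,3],[[0,1,2,3],[0,1,2,3,4],[0,1,2,3,4],[0,1,2,3,4]])]),
([5,6,4,5],[(2,0),(3,1),(2,2),(3,2),(2,3),(2,1)],[(57,[0,1,2,3],[[0,1,2,3,4],[0,1,2,3,4,5],[0,1,2,3,4],[0,1,2,3,4]]),(60,[0,1,2,3],[[0,1,2,3,4],[0,1,2,3,4,5],[0,1,2,3,4],[0,1,2,3,4]]),(55,[0,1,2,3],[[0,1,2,3,4],[0,1,2,3,4,5],[0,1,2,3,4],[0,1,2,3,4]]),(56,[0,1,2,3],[[0,1,2,3,4],[0,1,2,3,4,5],[0,1,2,3,4],[0,1,2,3,4]]),(47,[2,1,3,0],[[4,1,2,0,3],[4,3,0,1,2,5],[3,4,1,0,2],[0,5,4,1,3,2]]),(60,[0,1,2,3],[[0,3,2,1,4],[0,3,2,1,4,5],[0,1,2,3,4],[0,2,1,3,4]]),(55,[0,1,2,3],[[0,3,2,1,4],[0,3,2,1,4,5],[0,1,2,3,4],[0,2,1,3,4]]),(56,[0,1,2,3],[[0,3,2,1,4],[0,3,2,1,4,5],[0,1,2,3,4],[0,2,1,3,4]]),(47,[2,1,3,0],[[4,3,2,0,1],[4,1,0,3,2,5],[3,4,1,0,2],[0,5,4,2,3,1]])]),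
([6,6,5,5],[(2,0),(2,1),(2,2),(2,3),(2,4),(3,2)],[(31,[0,1,2,3],[[0,1,2,3,4],[0,1,2,3,4,5],[5,1,2,3,0],[0,1,2,3,4]])]),
([5,6,5,5],[(2,0),(2,1),(2,2),(2,3),(3,2),(2,4)],[(31,[0,1,2,3],[[0,1,2,3,4],[0,1,2,3,4,5],[5,1,2,3,0],[0,1,2,3,4]])]),
([6,6,5,5],[(0,0),(0,1),(0,2),(0,3),(1,4),(3,2)],[]),
([5,6,5,5],[(0,0),(0,1),(0,2),(0,3),(0,4),(3,2)],[(64,[0,1,2,3],[[0,1,2,3,4,5],[0,1,2,3,4,5],[0,1,2,3,4],[0,1,2,3,4]])]),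
([5,6,5,5],[(0,0),(0,1),(0,2),(0,3),(0,4),(3,2)],[(62,[0,1,2,3],[[0,1,2,3,5,4],[0,1,2,3,4,5],[0,1,2,3,4],[0,1,2,3,4]])]),
([5,6,4,5],[(2,0),(0,1),(2,2),(2,1),(0,0),(2,3)],[(65,[0,1,2,3],[[0,1,2,3,4],[0,1,2,3,4,5],[0,1,2,3,4],[0,1,2,3,4]]),(63,[0,1,2,3],[[0,1,2,3,4],[0,1,2,3,4,5],[0,1,2,3,4],[0,1,2,3,4]]),(66,[0,1,2,3],[[0,1,2,3,4],[0,1,2,3,4,5],[0,1,2,3,4],[0,1,2,3,4]]),(62,[0,1,2,3],[[0,1,2,3,4,5],[0,1,2,3,4,5],[0,1,2,3,4],[0,1,2,3,4]]),(31,[0,1,2,3],[[0,3,2,1,4],[0,3,2,1,4,5],[0,1,2,3,4],[0,2,1,3,4]])]),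
([5,6,5,5],[(0,0),(0,1),(0,2),(2,1),(1,4),(2,2)],[]),
([5,6,5,5],[(1,0),(0,1),(2,2),(3,2),(2,3),(1,5)],[(68,[0,1,2,3],[[0,1,2,3,4],[0,1,2,3,4,5],[0,1,2,3,4],[0,1,2,3,4]]),(68,[3,1,2,0],[[0,3,1,4,2],[0,3,4,1,2,5],[0,1,2,3,4],[0,2,4,1,3]])]),
([5,6,4,5],[(2,0),(0,1),(2,2),(2,1),(2,3),(1,1)],[(69,[0,1,2,3],[[0,1,2,3,4],[0,1,2,3,4,5],[0,1,2,3,4],[0,1,2,3,4]]),(31,[0,1,2,3],[[0,3,2,1,4],[0,3,2,1,4,5],[0,1,2,3,4],[0,2,1,3,4]])]),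
([5,6,5,5],[(0,0),(0,1),(0,2),(2,1),(2,3),(1,0)],[]),
([4,6,4,5],[(0,0),(0,1),(2,2),(0,3),(2,3),(2,1)],[]),
([5,6,5,5],[(3,0),(0,1),(3,2),(0,0),(2,3),(1,5)],[(71,[0,1,2,3],[[0,1,2,3,4],[0,1,2,3,4,5],[0,1,2,3,4],[0,1,2,3,4]]),(72,[0,1,2,3],[[0,1,2,3],[0,1,2,3,4,5],[0,1,2,3],[0,1,2,3,4]]),(70,[0,1,2,3],[[0,1,4,3,2],[0,1,4,3,2,5],[0,1,3,2],[0,1,2,4,3]])]),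
([5,6,4,5],[(2,0),(2,1),(2,2),(2,3),(0,1),(1,1)],[(73,[0,1,2,3],[[0,1,2,3,4],[0,1,2,3,4,5],[0,1,2,3,4],[0,1,2,3,4]]),(31,[0,1,2,3],[[0,3,2,1,4],[0,3,2,1,4,5],[0,1,2,3,4],[0,2,1,3,4]])]),
([5,5,4,5],[(1,0),(2,1),(1,2),(1,4),(1,1),(1,3)],[(61,[0,1,2,3],[[0,1,2,3,4],[0,1,2,3,4,5],[0,1,2,3],[0,1,2,3,4]]),(67,[0,1,2,3],[[0,1,2,3,4],[0,1,2,3,4,5],[0,1,2,3],[0,1,2,3,4]]),(70,[0,1,2,3],[[0,1,2,3,4],[0,1,2,3,4,5],[0,1,2,3],[0,1,2,3,4]]),(74,[0,1,2,3],[[0,1,2,3,4],[0,1,2,3,4,5],[0,1,2,3],[0,1,2,3,4]]),(31,[0,1,2,3],[[0,1,2,3,4],[0,1,2,3,4,5],[0,1,2,3,4],[0,1,2,3,4]]),(67,[0,1,2,3],[[0,3,2,1,4],[0,3,2,1,4,5],[0,1,2,3],[0,2,1,3,4]]),(70,[0,1,2,3],[[0,3,2,1,4],[0,3,2,1,4,5],[0,1,2,3],[0,2,1,3,4]]),(74,[0,1,2,3],[[0,3,2,1,4],[0,3,2,1,4,5],[0,1,2,3],[0,2,1,3,4]]),(31,[0,1,2,3],[[0,3,2,1,4],[0,3,2,1,4,5],[0,1,2,3,4],[0,2,1,3,4]])]),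
([6,6,4,6],[(0,0),(0,1),(3,0),(2,1),(2,0),(1,1)],[]),
([6,6,4,6],[(2,0),(1,1),(3,0),(3,2),(0,0),(0,5)],[(76,[0,1,2,3],[[0,1,2,3,4,5],[0,1,2,3,4,5],[0,1,2,3],[0,1,2,3,4,5]])]),
([6,6,4,6],[(0,0),(0,1),(0,2),(2,1),(2,3),(1,1)],[]),
([6,6,4,6],[(3,0),(1,1),(3,2),(2,3),(1,4),(0,5)],[(78,[0,1,2,3],[[0,1,2,3,4,5],[0,1,2,3,4,5],[0,1,2,3],[0,1,2,3,4,5]])]),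
([6,6,4,6],[(2,0),(1,1),(1,2),(2,1),(1,4),(1,3)],[(77,[3,0,2,1],[[0,3,1,2,4,5],[4,3,2,1,5,0],[2,1,3,0],[4,2,3,1,0,5]]),(77,[1,0,2,3],[[4,1,2,3,0,5],[4,1,2,3,5,0],[3,1,2,0],[0,1,2,3,4,5]]),(75,[0,3,1,2],[[0,3,2,1,4],[4,3,0,5,2],[2,1,0,4,3],[4,2,3,0]]),(77,[3,0,2,1],[[0,3,1,2,4,5],[4,3,2,1,0,5],[2,1,3,0],[4,2,3,1,0,5]]),(77,[1,0,2,3],[[4,1,2,3,0,5],[4,1,2,3,0,5],[3,1,2,0],[0,1,2,3,4,5]]),(75,[0,3,1,2],[[0,3,2,1,4],[4,3,5,0,2],[2,1,0,4,3],[4,2,3,0]]),(77,[3,0,2,1],[[0,3,1,2,4,5],[4,3,2,1,0,6],[2,1,3,0],[4,2,3,1,0,5]]),(77,[1,0,2,3],[[4,1,2,3,0,5],[4,1,2,3,0,6],[3,1,2,0],[0,1,2,3,4,5]]),(75,[0,3,1,2],[[0,3,2,1,4],[4,3,6,0,2],[2,1,0,4,3],[4,2,3,0]]),(77,[3,0,2,1],[[0,1,3,2,4,5],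[4,1,2,3,5,0],[2,1,3,0],[4,1,3,2,0,5]]),(77,[1,0,2,3],[[4,3,2,1,0,5],[4,3,2,1,5,0],[3,1,2,0],[0,2,1,3,4,5]]),(75,[0,3,1,2],[[0,1,2,3,4],[4,1,0,5,2],[2,1,0,4,3],[4,1,3,0]]),(77,[3,0,2,1],[[0,1,3,2,4,5],[4,1,2,3,0,5],[2,1,3,0],[4,1,3,2,0,5]]),(77,[1,0,2,3],[[4,3,2,1,0,5],[4,3,2,1,0,5],[3,1,2,0],[0,2,1,3,4,5]]),(75,[0,3,1,2],[[0,1,2,3,4],[4,1,5,0,2],[2,1,0,4,3],[4,1,3,0]]),(77,[3,0,2,1],[[0,1,3,2,4,5],[4,1,2,3,0,6],[2,1,3,0],[4,1,3,2,0,5]]),(77,[1,0,2,3],[[4,3,2,1,0,5],[4,3,2,1,0,6],[3,1,2,0],[0,2,1,3,4,5]]),(75,[0,3,1,2],[[0,1,2,3,4],[4,1,6,0,2],[2,1,0,4,3],[4,1,3,0]])]),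
([5,6,4,6],[(0,0),(0,1),(0,2),(0,3),(0,4),(2,1)],[(77,[0,1,2,3],[[0,1,2,3,4,5],[0,1,2,3,4,5],[0,1,2,3],[0,1,2,3,4,5]]),(77,[0,3,2,1],[[0,3,2,1,4,5],[4,3,1,2,0,5],[2,1,0,3],[4,2,3,1,0,5]]),(79,[0,1,2,3],[[0,1,2,3,4,5],[0,1,2,3,4,5],[0,1,2,3],[0,1,2,3,4,5]]),(75,[0,2,1,3],[[0,1,2,5,4],[0,1,2,4],[0,1,2,4,3],[0,1,2,4,3]]),(77,[0,1,2,3],[[0,3,2,1,4,5],[0,3,2,1,4,5],[0,1,2,3],[0,2,1,3,4,5]]),(80,[0,1,2,3],[[0,1,2,3,4,5],[0,1,2,3,4,5],[0,1,2,3],[0,1,2,3,4,5]]),(77,[0,3,2,1],[[0,1,2,3,4,5],[4,1,3,2,0,5],[2,1,0,3],[4,1,3,2,0,5]]),(79,[0,1,2,3],[[0,3,2,1,4,5],[0,3,2,1,4,5],[0,1,2,3],[0,2,1,3,4,5]]),(75,[0,2,1,3],[[0,3,2,5,4],[0,3,2,4],[0,1,2,4,3],[0,2,1,4,3]])]),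
([5,6,5,5],[(0,0),(0,1),(0,2),(2,1),(1,4),(2,0)],[]),
([5,6,5,6],[(2,0),(0,1),(3,0),(3,2),(0,0),(1,5)],[(82,[0,1,2,3],[[0,1,2,3,4],[0,1,2,3,4,5],[0,1,2,3,4],[0,1,2,3,4]])]),
([5,6,4,6],[(2,0),(2,1),(2,2),(2,3),(0,1),(1,1)],[(83,[0,1,2,3],[[0,1,2,3,4],[0,1,2,3,4,5],[0,1,2,3,4],[0,1,2,3,4,5]]),(75,[0,3,1,2],[[0,1,2,3,4],[4,1,5,0,2],[2,1,0,4,3],[4,1,3,0]])]),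
([5,6,4,6],[(0,0),(0,1),(0,2),(2,1),(1,4),(2,2)],[]),
([5,6,4,5],[(0,0),(0,1),(0,2),(2,1),(0,4),(2,2)],[]),
([5,6,4,6],[(0,0),(0,1),(2,2),(3,2),(1,4),(1,5)],[(86,[0,1,2,3],[[0,1,2,3,4],[0,1,2,3,4,5],[0,1,2,3],[0,1,2,3,4]]),(85,[0,1,2,3],[[0,1,2,3,4],[0,1,2,3,4,5],[0,1,2,3],[0,1,2,3,4,5]])]),
([5,6,4,5],[(0,0),(0,1),(0,2),(2,1),(0,4),(2,3)],[]),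
([5,6,4,6],[(3,0),(0,1),(3,2),(2,3),(1,4),(1,5)],[(88,[0,1,2,3],[[0,1,2,3,4],[0,1,2,3,4,5],[0,1,2,3],[0,1,2,3,4]]),(84,[0,1,2,3],[[0,1,4,3,2],[2,1,0,3,4,5],[3,1,2,0],[3,1,2,0,4,5]])]),
([5,5,4,6],[(1,0),(2,1),(1,2),(1,4),(1,1),(1,3)],[(81,[0,1,2,3],[[0,1,2,3,4],[0,1,2,3,4,5],[0,1,2,3],[0,1,2,3,4,5]]),(84,[0,1,2,3],[[0,1,2,3,4],[0,1,2,3,4,5],[0,1,2,3],[0,1,2,3,4,5]]),(87,[0,1,2,3],[[0,1,2,3,4],[0,1,2,3,4,5],[0,1,2,3],[0,1,2,3,4,5]]),(89,[0,1,2,3],[[0,1,2,3,4],[0,1,2,3,4,5],[0,1,2,3],[0,1,2,3,4,5]]),(75,[0,3,1,2],[[0,3,2,1,4],[4,3,5,0,2],[2,1,0,4,3],[4,2,3,0]]),(84,[0,1,2,3],[[0,3,2,1,4],[0,3,2,1,4,5],[0,1,2,3],[0,2,1,3,4,5]]),(87,[0,1,2,3],[[0,3,2,1,4],[0,3,2,1,4,5],[0,1,2,3],[0,2,1,3,4,5]]),(89,[0,1,2,3],[[0,3,2,1,4],[0,3,2,1,4,5],[0,1,2,3],[0,2,1,3,4,5]]),(75,[0,3,1,2],[[0,1,2,3,4],[4,1,5,0,2],[2,1,0,4,3],[4,1,3,0]])]),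
([5,5,5,6],[(0,0),(0,1),(3,0),(1,3),(2,0),(3,5)],[(88,[3,0,2,1],[[0,3,1,2,4],[4,3,2,1,0],[2,1,3,0],[4,2,3,1,0,5]])]),
([5,5,4,6],[(2,0),(3,1),(2,2),(2,1),(2,3),(0,1)],[(91,[0,1,2,3],[[0,1,2,3,4],[0,1,2,3,4],[0,1,2,3,4],[0,1,2,3,4,5]]),(75,[0,2,1,3],[[0,1,2,3,4],[0,1,2,4],[0,1,2,4,3],[0,1,5,4,3]])]),
([5,5,5,6],[(0,0),(0,1),(2,2),(1,3),(1,4),(3,5)],[(82,[0,3,2,1],[[0,1,2,3,4],[4,1,3,2,0],[2,1,0,3,4],[4,1,3,2,0,5]])]),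
([5,5,4,6],[(2,0),(3,1),(2,2),(2,1),(2,3),(0,1)],[(93,[0,1,2,3],[[0,1,2,3,4],[0,1,2,3,4],[0,1,2,3,4],[0,1,2,3,4,5]]),(75,[0,2,1,3],[[0,1,2,3,4],[0,1,2,4],[0,1,2,4,3],[0,1,5,4,3]])]),
([5,5,4,5],[(3,0),(2,1),(3,3),(3,4),(3,1),(3,2)],[(90,[0,1,2,3],[[0,1,2,3,4],[0,1,2,3,4],[0,1,2,3],[0,1,2,3,4,5]]),(92,[0,1,2,3],[[0,1,2,3,4],[0,1,2,3,4],[0,1,2,3],[0,1,2,3,4,5]]),(94,[0,1,2,3],[[0,1,2,3,4],[0,1,2,3,4],[0,1,2,3],[0,1,2,3,4,5]]),(92,[1,0,2,3],[[4,3,2,1,0],[4,3,2,1,0],[3,1,2,0],[0,2,1,3,4,5]]),(75,[0,2,1,3],[[0,3,2,1,4],[0,3,2,4],[0,1,2,4,3],[0,2,5,4,3]]),(92,[0,1,2,3],[[0,3,2,1,4],[0,3,2,1,4],[0,1,2,3],[0,2,1,3,4,5]]),(94,[0,1,2,3],[[0,3,2,1,4],[0,3,2,1,4],[0,1,2,3],[0,2,1,3,4,5]]),(92,[1,0,2,3],[[4,1,2,3,0],[4,1,2,3,0],[3,1,2,0],[0,1,2,3,4,5]]),(75,[0,2,1,3],[[0,1,2,3,4],[0,1,2,4],[0,1,2,4,3],[0,1,5,4,3]])]),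
([5,5,4,5],[(3,0),(1,1),(2,1),(0,0),(0,1),(3,1)],[(75,[0,1,2,3],[[0,1,2,3,4],[0,1,2,3,4],[0,1,2,3],[0,1,2,3,4]]),(75,[0,1,2,3],[[0,1,4,3,2],[0,1,4,3,2],[0,1,3,2],[0,1,2,4,3]]),(95,[0,1,2,3],[[0,1,2,3,4],[0,1,2,3,4],[0,1,2,3],[0,1,2,3,4]]),(95,[0,1,2,3],[[0,1,4,3,2],[0,1,4,3,2],[0,1,3,2],[0,1,2,4,3]])]),
([5,5,4,5],[(3,0),(3,1),(2,1),(2,3),(0,1),(1,1)],[(96,[0,1,2,3],[[0,1,2,3,4],[0,1,2,3,4],[0,1,2,3],[0,1,2,3,4]]),(96,[1,0,2,3],[[0,1,2,3,4],[0,1,2,3,4],[0,1,2,3],[0,1,2,4,3]]),(96,[0,1,2,3],[[2,1,0,3,4],[2,1,0,3,4],[2,1,0,3],[0,1,2,4,3]]),(96,[1,0,2,3],[[2,1,0,3,4],[2,1,0,3,4],[2,1,0,3],[0,1,2,3,4]])]),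
([5,5,4,5],[(2,0),(0,1),(2,2),(1,3),(2,3),(2,1)],[(97,[2,0,1,3],[[2,1,4,0],[2,1,4,3,0],[2,1,3,0,4],[0,1,4,3,2]]),(96,[0,2,1,3],[[0,1,2,3,4],[0,1,2,4],[0,1,2,4,3],[0,1,4,2,3]])]),
([5,5,5,5],[(0,0),(0,1),(0,2),(2,1),(1,4),(2,2)],[]),
([5,5,5,5],[(0,0),(0,1),(2,2),(1,3),(2,3),(2,1)],[]),
([5,5,5,5],[(3,0),(0,1),(1,3),(2,3),(2,2),(3,4)],[(99,[0,1,2,3],[[0,1,2,3,4],[0,1,2,3,4],[0,1,2,3,4],[0,1,2,3,4]]),(100,[0,1,2,3],[[0,1,2,3,4],[0,1,2,3,4],[0,1,2,3,4],[0,1,2,3,4]])]),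
([5,5,4,5],[(2,0),(2,1),(2,2),(2,3),(0,1),(1,3)],[(101,[0,1,2,3],[[0,1,2,3,4],[0,1,2,3,4],[0,1,2,3,4],[0,1,2,3,4]]),(96,[0,2,1,3],[[0,1,2,3,4],[0,1,2,4],[0,1,2,4,3],[0,1,4,2,3]])]),
([5,5,4,5],[(2,0),(2,1),(2,2),(2,3),(1,1),(0,3)],[(96,[0,2,1,3],[[0,1,2,3,4],[0,1,2,4],[4,1,2,0,3],[0,1,4,2,3]]),(96,[2,1,0,3],[[4,1,0,2],[4,1,0,3,2],[3,1,0,4,2],[0,1,4,2,3]])]),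
([5,5,5,5],[(0,0),(1,1),(2,2),(0,3),(2,3),(2,1)],[]),
([5,5,5,5],[(0,0),(1,1),(2,2),(0,3),(2,3),(2,1)],[]),
([5,5,5,5],[(0,0),(1,1),(2,2),(0,3),(2,3),(3,4)],[(105,[0,1,2,3],[[0,1,2,3,4],[0,1,2,3,4],[0,1,2,3,4],[0,1,2,3,4]]),(104,[0,1,2,3],[[0,1,2,3,4],[0,1,2,3,4],[0,1,2,3,4],[0,1,2,3,4]])]),
([5,5,4,5],[(2,0),(1,1),(2,2),(2,1),(2,3),(0,3)],[(106,[0,1,2,3],[[0,1,2,3,4],[0,1,2,3,4],[0,1,2,3,4],[0,1,2,3,4]]),(97,[2,0,1,3],[[2,1,4,0],[2,1,4,3,0],[2,1,3,4,0],[0,1,4,3,2]])]),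
([5,5,4,4],[(3,0),(3,1),(3,2),(2,3),(2,1),(3,3)],[(98,[0,1,2,3],[[0,1,2,3,4],[0,1,2,3,4],[0,1,2,3],[0,1,2,3,4]]),(102,[0,1,2,3],[[0,1,2,3,4],[0,1,2,3,4],[0,1,2,3],[0,1,2,3,4]]),(97,[2,0,1,3],[[2,1,4,0],[2,1,4,3,0],[2,1,3,4,0],[0,1,4,3,2]]),(103,[0,1,2,3],[[0,1,2,3,4],[0,1,2,3,4],[0,1,2,3],[0,1,2,3,4]]),(107,[0,1,2,3],[[0,1,2,3,4],[0,1,2,3,4],[0,1,2,3],[0,1,2,3,4]]),(96,[0,2,1,3],[[0,1,2,3,4],[0,1,2,4],[0,1,2,4,3],[0,1,4,2,3]])]),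
([5,5,5,5],[(0,0),(0,1),(0,4),(2,1),(1,4),(2,0)],[]),
([5,5,5,5],[(2,0),(0,1),(3,0),(1,3),(0,0),(3,4)],[(109,[0,1,2,3],[[0,1,3,4,2],[0,1,3,2,4],[0,1,3,2,4],[0,1,2,3,4]])]),
([5,5,4,5],[(2,0),(3,1),(2,2),(2,1),(2,3),(0,1)],[(110,[0,1,2,3],[[0,1,2,3,4],[0,1,2,3,4],[0,1,2,3,4],[0,1,2,3,4]]),(97,[0,2,1,3],[[0,1,2,3,4],[0,1,2,4],[0,1,2,4,3],[0,1,4,2,3]])]),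
([5,5,4,5],[(0,0),(0,1),(0,2),(2,1),(0,4),(2,3)],[]),
([5,5,4,5],[(0,0),(0,1),(0,2),(2,1),(0,4),(2,3)],[]),
([5,5,4,5],[(2,0),(2,1),(0,2),(2,3),(3,2),(3,4)],[]),
([5,5,4,5],[(3,0),(0,1),(1,3),(2,3),(1,4),(3,4)],[(112,[0,1,2,3],[[0,1,2,3,4],[0,1,2,3,4],[0,1,2,3],[0,1,2,3,4]]),(113,[0,1,2,3],[[0,1,2,3,4],[0,1,2,3,4],[0,1,2,3],[0,1,2,3,4]]),(111,[0,1,2,3],[[0,1,4,3,2],[2,1,0,3,4],[3,1,2,0],[3,1,2,0,4]]),(114,[0,1,2,3],[[0,1,2,3,4],[0,1,2,3,4],[0,1,2,3],[0,1,2,3,4]]),(108,[1,0,2,3],[[4,1,2,3,0],[4,1,2,3,0],[3,1,2,0],[0,1,2,3]])]),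
([5,5,4,4],[(3,0),(2,1),(3,3),(2,2),(3,1),(3,2)],[(111,[0,1,2,3],[[0,1,2,3,4],[0,1,2,3,4],[0,1,2,3],[0,1,2,3,4]]),(115,[0,1,2,3],[[0,1,2,3,4],[0,1,2,3,4],[0,1,2,3],[0,1,2,3,4]]),(97,[2,0,1,3],[[2,1,4,0],[2,1,4,3,0],[2,1,3,4,0],[0,1,4,3,2]]),(115,[1,0,2,3],[[4,1,2,3,0],[4,1,2,3,0],[3,1,2,0],[0,1,2,3,4]]),(111,[1,0,2,3],[[4,1,2,3,0],[4,1,2,3,0],[3,1,2,0],[0,1,2,3,4]]),(97,[0,2,1,3],[[0,1,2,3,4],[0,1,2,4],[0,1,2,4,3],[0,1,4,2,3]])]),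
([5,5,4,5],[(2,0),(1,1),(2,2),(2,1),(2,3),(1,3)],[(116,[0,2,1,3],[[0,1,4,3,2],[0,3,4,2],[4,0,3,1,2],[0,4,2,3]])]),
([5,5,4,5],[(3,0),(2,1),(2,3),(2,2),(0,3),(3,2)],[(117,[0,1,2,3],[[0,1,2,3,4],[0,1,2,3,4],[0,1,2,3],[0,1,2,3,4]]),(116,[0,2,1,3],[[0,1,4,3,2],[0,3,4,2],[0,4,3,1,2],[0,4,2,3]]),(116,[0,1,2,3],[[0,1,2,3,4],[0,1,2,3,4],[0,1,2,3],[0,1,2,3]]),(116,[0,1,2,3],[[4,3,0,1,2],[4,3,0,1,2],[3,1,0,2],[0,2,1,3]])]),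
([5,5,5,5],[(0,0),(1,1),(2,2),(0,3),(2,3),(2,1)],[]),
([5,5,5,5],[(0,0),(1,1),(1,2),(2,1),(2,3),(1,0)],[]),
([5,5,5,5],[(3,0),(1,1),(0,3),(2,3),(2,2),(3,4)],[(119,[0,1,2,3],[[0,1,2,3,4],[0,1,2,3,4],[0,1,2,3,4],[0,1,2,3,4]]),(120,[0,1,2,3],[[0,1,2,3,4],[0,1,2,3,4],[0,1,2,3,4],[0,1,2,3,4]])]),
([5,5,4,5],[(2,0),(2,1),(2,2),(2,3),(0,3),(1,1)],[(121,[0,1,2,3],[[0,1,2,3,4],[0,1,2,3,4],[0,1,2,3,4],[0,1,2,3,4]]),(116,[0,2,1,3],[[0,1,4,3,2],[0,3,4,2],[0,4,3,1,2],[0,4,2,3]])]),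
([5,5,4,4],[(3,0),(0,1),(3,2),(3,3),(3,1),(2,1)],[(96,[0,1,2,3],[[0,1,2,3,4],[0,1,2,3,4],[0,1,2,3],[0,1,2,3,4]]),(116,[0,2,3,1],[[0,1,4,3,2],[4,1,0,2],[2,1,0,3],[2,1,3,4,0]]),(118,[0,1,2,3],[[0,1,2,3,4],[0,1,2,3,4],[0,1,2,3],[0,1,2,3,4]]),(122,[0,1,2,3],[[0,1,2,3,4],[0,1,2,3,4],[0,1,2,3],[0,1,2,3,4]]),(96,[0,2,1,3],[[0,1,2,3,4],[0,1,2,4],[0,1,2,4,3],[0,1,4,2,3]])]),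
([5,5,5,5],[(0,0),(2,1),(3,0),(3,2),(1,3),(0,3)],[]),
([5,5,5,5],[(0,0),(0,1),(1,2),(2,1),(0,4),(2,0)],[]),
([5,5,5,5],[(0,0),(0,1),(3,0),(1,3),(2,0),(3,4)],[(125,[0,1,2,3],[[0,1,2,3,4],[0,1,2,3,4],[0,1,2,3,4],[0,1,2,3,4]])]),
([5,5,4,5],[(2,0),(0,1),(2,2),(1,3),(2,3),(2,1)],[(124,[0,1,2,3],[[0,1,2,3,4],[0,1,2,3,4],[0,1,2,3,4],[0,1,2,3,4]]),(126,[0,1,2,3],[[0,1,2,3,4],[0,1,2,3,4],[0,1,2,3,4],[0,1,2,3,4]]),(108,[2,0,1,3],[[2,3,4,0],[2,1,4,3,0],[2,4,3,1,0],[0,4,2,3]])]),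
([5,5,5,5],[(0,0),(0,1),(2,2),(2,1),(0,4),(1,3)],[(126,[0,1,2,3],[[0,3,2,1,4],[0,3,2,1,4],[0,1,2,3,4],[0,2,1,3,4]])]),
([5,5,5,5],[(3,0),(2,1),(1,2),(3,2),(1,3),(0,3)],[(128,[0,1,2,3],[[0,1,2,3,4],[0,1,2,3,4],[0,1,2,3,4],[0,1,2,3,4]])]),
([5,5,4,5],[(2,0),(0,1),(2,2),(2,1),(2,3),(1,3)],[(129,[0,1,2,3],[[0,1,2,3,4],[0,1,2,3,4],[0,1,2,3,4],[0,1,2,3,4]]),(108,[2,0,1,3],[[2,3,4,0],[2,1,4,3,0],[2,4,3,1,0],[0,4,2,3]])]),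
([5,5,4,4],[(3,0),(3,1),(2,1),(2,3),(3,2),(3,3)],[(127,[0,1,2,3],[[0,1,2,3,4],[0,1,2,3,4],[0,1,2,3],[0,1,2,3,4]]),(130,[0,1,2,3],[[0,1,2,3,4],[0,1,2,3,4],[0,1,2,3],[0,1,2,3,4]]),(108,[0,2,1,3],[[0,1,4,3,2],[0,3,4,2],[0,4,3,1,2],[0,4,2,3]]),(130,[1,0,2,3],[[2,1,0,3,4],[2,1,0,3,4],[2,1,0,3],[0,1,2,3,4]]),(127,[1,0,2,3],[[2,1,0,3,4],[2,1,0,3,4],[2,1,0,3],[0,1,2,3,4]]),(108,[2,0,1,3],[[2,3,4,0],[2,1,4,3,0],[2,4,3,1,0],[0,4,2,3]])]),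
([5,5,4,4],[(0,0),(1,1),(3,0),(2,1),(3,1),(0,1)],[(108,[0,1,2,3],[[0,1,2,3,4],[0,1,2,3,4],[0,1,2,3],[0,1,2,3]]),(123,[0,1,2,3],[[0,1,2,3,4],[0,1,2,3,4],[0,1,2,3],[0,1,2,3]]),(116,[0,1,2,3],[[0,1,2,3,4],[0,1,2,3,4],[0,1,2,3],[0,1,2,3]]),(131,[0,1,2,3],[[0,1,2,3,4],[0,1,2,3,4],[0,1,2,3],[0,1,2,3]])]),
([5,5,4,4],[(3,0),(1,1),(2,1),(3,3),(3,1),(0,1)],[(132,[0,1,2,3],[[0,1,4,3,2],[0,1,4,3,2],[0,1,3,2],[0,1,2,3]]),(97,[0,1,2,3],[[0,1,2,3,4],[0,1,2,3,4],[0,1,2,3],[0,1,2,4,3]])]),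
([5,5,4,4],[(3,0),(1,1),(2,1),(3,3),(3,1),(0,1)],[(132,[0,1,2,3],[[0,1,2,3,4],[0,1,2,3,4],[0,1,2,3],[0,1,2,3]]),(96,[0,1,2,3],[[0,1,2,3,4],[0,1,2,3,4],[0,1,2,3],[0,1,2,3,4]])]),
([5,5,4,4],[(3,0),(1,1),(2,1),(0,0),(3,1),(0,1)],[(133,[0,1,2,3],[[0,1,2,3,4],[0,1,2,3,4],[0,1,2,3],[0,1,2,3]]),(133,[0,1,2,3],[[0,1,4,3,2],[0,1,4,3,2],[0,1,3,2],[0,1,2,3]]),(134,[0,1,2,3],[[0,1,2,3,4],[0,1,2,3,4],[0,1,2,3],[0,1,2,3]]),(134,[0,1,2,3],[[0,1,4,3,2],[0,1,4,3,2],[0,1,3,2],[0,1,2,3]])]),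
([5,5,4,4],[(3,0),(2,1),(3,3),(2,3),(3,1),(3,2)],[(132,[2,1,3,0],[[4,1,0,2],[4,1,2,3,0],[3,1,0,2],[0,1,3,4,2]]),(132,[2,1,3,0],[[4,1,2,0],[4,1,0,3,2],[3,1,2,0],[0,1,2,4,3]]),(132,[1,2,0,3],[[4,1,0,3,2],[4,3,0,2],[3,4,0,1,2],[0,4,2,3]]),(132,[1,2,3,0],[[4,1,2,3,0],[4,1,0,2],[3,1,0,2],[0,1,2,4,3]]),(132,[1,2,3,0],[[4,1,0,3,2],[4,1,2,0],[3,1,2,0],[0,1,3,4,2]]),(132,[2,1,0,3],[[4,3,2,0],[4,1,2,3,0],[3,4,2,1,0],[0,4,2,3]])]),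
([5,5,5,5],[(0,0),(0,1),(0,2),(2,1),(2,3),(2,0)],[]),
([5,5,5,5],[(3,0),(0,1),(1,3),(2,3),(3,4),(2,0)],[(137,[0,1,2,3],[[0,1,2,3,4],[0,1,2,3,4],[0,1,2,3,4],[0,1,2,3,4]]),(137,[1,0,2,3],[[0,3,2,1,4],[0,3,2,1,4],[0,1,2,3,4],[0,2,1,3,4]])]),
([5,5,4,5],[(2,0),(0,1),(2,2),(1,3),(2,3),(2,1)],[(135,[1,2,0,3],[[4,3,2,1,0],[4,3,2,0],[3,1,2,0,4],[0,2,4,3]]),(135,[1,2,0,3],[[4,1,0,3,2],[4,1,0,2],[3,1,0,4,2],[0,1,4,3]]),(138,[0,1,2,3],[[0,1,2,3,4],[0,1,2,3,4],[0,1,2,3,4],[0,1,2,3,4]])]),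
([5,5,4,4],[(3,0),(3,1),(3,2),(2,3),(2,1),(3,3)],[(139,[0,1,2,3],[[0,1,2,3,4],[0,1,2,3,4],[0,1,2,3],[0,1,2,3,4]]),(139,[0,1,2,3],[[2,1,0,3,4],[2,1,0,3,4],[2,1,0,3],[0,1,2,3,4]]),(135,[1,2,0,3],[[4,3,0,1,2],[4,3,0,2],[3,1,0,4,2],[0,2,4,3]]),(139,[0,1,2,3],[[0,3,2,1,4],[0,3,2,1,4],[0,1,2,3],[0,2,1,3,4]]),(139,[0,1,2,3],[[2,3,0,1,4],[2,3,0,1,4],[2,1,0,3],[0,2,1,3,4]]),(135,[1,2,0,3],[[4,1,0,3,2],[4,1,0,2],[3,1,0,4,2],[0,1,4,3]])]),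
([5,5,4,4],[(3,0),(0,1),(2,1),(3,3),(3,1),(1,1)],[(132,[0,1,2,3],[[0,1,2,3,4],[0,1,2,3,4],[0,1,2,3],[0,1,2,3]]),(96,[0,1,2,3],[[0,1,2,3,4],[0,1,2,3,4],[0,1,2,3],[0,1,2,3,4]]),(132,[0,1,2,3],[[2,1,4,3,0],[2,1,4,3,0],[2,1,3,0],[0,1,2,3]]),(96,[0,1,2,3],[[2,1,0,3,4],[2,1,0,3,4],[2,1,0,3],[0,1,2,4,3]]),(132,[1,0,2,3],[[2,1,0,3,4],[2,1,0,3,4],[2,1,0,3],[0,1,2,3]]),(96,[1,0,2,3],[[2,1,0,3,4],[2,1,0,3,4],[2,1,0,3],[0,1,2,3,4]])]),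
([5,5,4,4],[(3,0),(1,1),(2,1),(1,2),(3,1),(0,1)],[(132,[0,1,2,3],[[0,1,2,3,4],[0,1,2,3,4],[0,1,2,3],[0,1,2,3]]),(135,[0,1,2,3],[[0,1,2,3,4],[0,1,2,3,4],[0,1,2,3],[0,1,2,3]]),(96,[0,1,2,3],[[0,1,2,3,4],[0,1,2,3,4],[0,1,2,3],[0,1,2,3,4]]),(136,[0,1,2,3],[[0,1,2,3,4],[0,1,2,3,4],[0,1,2,3],[0,1,2,3]]),(140,[0,1,2,3],[[0,1,2,3,4],[0,1,2,3,4],[0,1,2,3],[0,1,2,3]]),(97,[0,1,2,3],[[0,1,2,3,4],[0,1,2,3,4],[0,1,2,3],[0,1,2,3,4]]),(141,[0,1,2,3],[[4,1,0,3,2],[4,1,0,3,2],[3,1,0,2],[0,1,2,3]]),(141,[0,1,2,3],[[0,1,2,3,4],[0,1,2,3,4],[0,1,2,3],[0,1,2,3]])]),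
([5,5,5,5],[(0,0),(2,1),(1,2),(2,4),(1,0),(3,2)],[]),
([5,5,5,5],[(0,0),(2,1),(1,2),(3,2),(0,3),(1,0)],[]),
([5,5,5,5],[(1,0),(1,1),(1,2),(1,3),(1,4),(0,0)],[(143,[0,1,2,3],[[0,1,2,3,4],[0,1,2,3,5],[0,1,2,3,4],[0,1,2,3,4]]),(143,[0,1,2,3],[[0,4,2,3,1],[0,1,2,4,5],[0,4,2,3,1],[0,2,1,3,4]]),(144,[0,1,2,3],[[0,1,2,3,4],[0,1,2,3,5],[0,1,2,3,4],[0,1,2,3,4]]),(144,[0,1,2,3],[[0,4,2,3,1],[0,1,2,4,5],[0,4,2,3,1],[0,2,1,3,4]])]),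
([5,4,5,5],[(1,0),(1,1),(1,2),(3,2),(1,3),(0,0)],[(142,[2,0,3,1],[[1,0,3,4],[1,2,3,0,4],[1,3,2,4],[1,3,2,4,0]]),(143,[0,1,3,2],[[0,4,2,3,1],[0,1,2,3,4],[2,4,1,3,0],[4,2,0,3,1]]),(142,[0,1,3,2],[[4,0,1,2,3],[4,0,1,2,3],[1,0,2,4],[3,0,1,2]]),(142,[0,1,3,2],[[4,0,1,2,3],[4,0,1,2,3],[1,0,2,4],[4,0,1,2]]),(142,[0,1,3,2],[[4,0,1,2,3],[4,0,1,2,3],[1,0,2,4],[5,0,1,2]]),(145,[0,1,2,3],[[0,1,2,3,4],[0,1,2,3,4],[0,1,2,3,4],[0,1,2,3,4]])]),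
([6,5,5,5],[(0,0),(1,1),(1,3),(3,2),(2,3),(3,3)],[]),
([5,5,6,5],[(0,0),(0,1),(0,2),(0,3),(0,4),(1,2)],[(142,[0,1,2,3],[[0,1,5,3,2],[2,1,0,3,4],[3,1,2,0],[3,1,2,0]]),(146,[2,0,1,3],[[5,0,1,4,2],[1,0,3,2,4],[1,0,4,3],[4,0,3,2,1]]),(147,[0,1,2,3],[[0,1,3,4,2,5],[0,1,3,2,4],[0,1,3,4,5],[0,1,2,3,4]]),(147,[0,1,2,3],[[0,1,4,3,2,5],[0,3,1,2,4],[0,4,3,1,5],[0,4,2,3,1]]),(146,[2,0,1,3],[[5,0,1,3,2],[3,0,1,2,4],[4,0,1,3],[1,0,3,2,4]])]),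
([5,5,5,5],[(2,0),(2,1),(2,2),(2,3),(3,2),(2,4)],[(148,[0,1,2,3],[[0,1,2,3,4],[0,1,2,3,4],[0,1,2,3,4,5],[0,1,2,3,4]]),(146,[0,2,3,1],[[0,3,2,1,4],[0,3,4,2,1],[0,1,4,3,5],[0,2,3,4]]),(146,[0,2,3,1],[[2,3,0,1,4],[4,3,0,2,1],[0,1,4,2,5],[3,2,0,4]]),(142,[0,3,1,2],[[1,0,4,2,3],[1,0,2,3],[1,0,4,2,5],[1,0,2,4]]),(148,[0,1,2,3],[[2,1,0,3,4],[4,1,2,3,0],[0,1,3,2,4,5],[3,1,2,0,4]]),(142,[0,3,1,2],[[1,0,3,2,4],[3,0,2,1],[4,0,1,2,5],[4,0,2,1]])]),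
([5,4,5,5],[(0,0),(0,1),(1,2),(1,3),(1,1),(1,0)],[(149,[0,1,2,3],[[0,1,2,3,4],[0,1,2,3,4],[0,1,2,3,4],[0,1,2,3,4]]),(142,[0,1,3,2],[[1,0,3,2,4],[1,0,3,2,4],[1,0,2,4],[1,0,2,4]]),(146,[1,2,3,0],[[2,1,0,4],[4,1,2,0,3],[3,1,4,0,2],[0,1,3,2,4]]),(142,[0,1,2,3],[[0,4,2,1,3],[0,1,2,3,4],[0,4,2,3],[0,2,4,3]]),(142,[0,1,2,3],[[0,1,2,3,4],[0,1,2,3,4],[0,1,2,3],[0,1,2,3]]),(142,[0,1,2,3],[[0,1,2,3,5],[0,1,2,3,4],[0,1,2,3],[0,1,2,3]]),(142,[0,1,3,2],[[1,0,4,2,3],[3,0,1,2,4],[4,0,2,1],[4,0,2,1]])]),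
([5,4,5,4],[(3,0),(3,1),(3,2),(3,3),(1,1),(1,2)],[(146,[0,1,2,3],[[0,1,2,3,4],[0,1,2,3],[0,1,2,3,4],[0,1,2,3,4]]),(142,[3,2,0,1],[[0,1,4,2],[3,1,0,2],[2,1,0,4,3],[4,1,0,2,3]]),(142,[3,0,1,2],[[0,3,4,2],[2,3,4,1,0],[3,1,2,4,0],[3,2,4,0]]),(150,[0,1,2,3],[[0,1,2,3,4],[0,1,2,3],[0,1,2,3,4],[0,1,2,3,4]]),(150,[2,1,0,3],[[3,0,4,1,2],[3,2,1,0],[1,3,4,0,2],[2,3,0,1,4]]),(142,[0,2,3,1],[[4,2,3,0,1],[0,2,3,1],[1,2,3,4],[4,0,2,3,1]]),(146,[2,1,0,3],[[3,0,4,1,2],[3,2,1,0],[1,3,4,0,2],[2,3,0,1,4]]),(142,[0,1,3,2],[[4,0,1,2,3],[4,0,1,2,3],[1,0,2,4],[4,0,1,2]])]),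
([5,4,4,4],[(1,0),(1,1),(1,2),(2,1),(1,3),(2,2)],[(151,[0,2,1,3],[[1,2,3,0,4],[4,2,3,1,0],[0,2,1,3],[2,0,3,1]]),(151,[0,2,1,3],[[1,4,3,0,2],[4,0,3,1,2],[3,2,1,0],[2,3,0,1]]),(151,[0,2,1,3],[[1,2,3,0,4],[4,2,3,1,0],[4,2,1,3],[2,0,3,1]]),(142,[0,1,2,3],[[0,1,4,3,2],[2,1,0,3,4],[3,1,2,0],[3,1,2,0]]),(151,[0,2,1,3],[[3,2,1,0,4],[4,2,1,3,0],[0,2,1,3],[1,0,3,2]]),(142,[0,1,2,3],[[0,1,2,3,4],[0,1,2,3,4],[0,1,2,3],[0,1,2,3]]),(151,[0,2,1,3],[[3,4,1,0,2],[4,0,1,3,2],[3,2,1,0],[1,3,0,2]]),(151,[0,2,1,3],[[3,2,1,0,4],[4,2,1,3,0],[4,2,1,3],[1,0,3,2]])]),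
([5,5,5,3],[(1,0),(0,1),(1,2),(3,2),(3,0),(3,1)],[]),
([5,5,5,4],[(3,0),(0,1),(3,2),(2,3),(3,3),(3,1)],[(151,[0,1,3,2],[[1,4,3,2,0],[1,0,3,2],[1,3,2,4],[1,0,2,3,4]]),(151,[0,1,3,2],[[1,2,3,0,4],[1,2,3,0],[1,2,0,4],[1,0,2,3,4]])]),
([5,5,4,4],[(3,0),(2,1),(2,3),(3,2),(2,2),(2,0)],[(153,[0,1,2,3],[[0,1,2,3,4],[0,1,2,3,4],[0,1,2,3,4],[0,1,2]]),(154,[0,1,2,3],[[0,1,2,3,4],[0,1,2,3,4],[0,1,2,3,4],[0,1,2,3]]),(151,[0,1,3,2],[[1,2,3,4,0],[1,2,3,0],[1,2,3,4],[1,0,2,4,3]]),(151,[0,2,1,3],[[1,4,3,2,0],[4,0,3,1,2],[2,3,1,4],[2,0,3,1]]),(151,[0,2,1,3],[[3,0,1,2,4],[4,2,1,3,0],[4,3,1,2],[1,3,0,2]])]),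
([5,5,5,3],[(1,0),(0,1),(1,2),(3,2),(3,0),(3,1)],[]),
([5,5,4,4],[(2,0),(2,1),(2,2),(2,3),(3,0),(3,2)],[(156,[0,1,2,3],[[0,1,2,3,4],[0,1,2,3,4],[0,1,2,3,4],[0,1,2]]),(142,[3,0,1,2],[[1,0,2,3],[3,0,1,2,4],[4,0,1,2,3],[3,0,1,2]]),(151,[0,1,3,2],[[1,2,3,4,0],[1,2,3,0],[1,2,3,4],[1,0,2,4,3]]),(151,[1,0,2,3],[[0,1,2,3],[0,1,2,3,4],[0,1,2,4,3],[0,1,2,3]]),(151,[0,2,1,3],[[3,0,1,2,4],[4,2,1,3,0],[4,3,1,2],[1,3,0,2]])]),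
([5,4,4,4],[(3,0),(1,1),(1,3),(1,2),(2,1),(1,0)],[(151,[0,2,1,3],[[1,0,3,2,4],[4,2,3,1,0],[0,3,1,2],[2,3,0,1]]),(155,[0,1,2,3],[[0,1,2,3,4],[0,1,2,3,4],[0,1,2,3],[0,1,2,3]]),(157,[0,1,2,3],[[0,1,2,3,4],[0,1,2,3,4],[0,1,2,3],[0,1,2,3]]),(151,[0,2,1,3],[[1,0,3,2,4],[4,2,3,1,0],[4,3,1,2],[2,3,0,1]]),(151,[0,2,1,3],[[3,0,1,2,4],[4,2,1,3,0],[0,3,1,2],[1,3,0,2]]),(155,[0,1,2,3],[[0,3,2,1,4],[0,3,2,1,4],[0,1,2,3],[0,2,1,3]]),(157,[0,1,2,3],[[0,3,2,1,4],[0,3,2,1,4],[0,1,2,3],[0,2,1,3]]),(151,[0,2,1,3],[[3,0,1,2,4],[4,2,1,3,0],[4,3,1,2],[1,3,0,2]])]),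
([5,4,5,5],[(2,0),(1,1),(1,2),(2,1),(0,0),(1,3)],[(158,[1,3,0,2],[[0,3,2,1],[2,3,0,1],[0,1,2,4,3],[4,2,0,3]]),(158,[1,0,3,2],[[0,3,2,1],[2,3,1,4,0],[0,1,4,2],[4,2,3,0]])]),
([5,4,5,5],[(0,0),(2,1),(1,2),(3,2),(1,3),(0,3)],[(159,[0,1,2,3],[[0,1,2,3,4],[0,1,2,3],[0,1,2,3,4],[0,1,2,3,4]])]),
([5,4,5,5],[(0,0),(0,1),(1,2),(2,1),(1,1),(1,3)],[(158,[3,1,0,2],[[0,1,3,2],[3,1,2,0],[2,1,3,0,4],[4,1,3,0]]),(158,[3,1,0,2],[[0,1,3,2],[3,1,2,4],[2,1,3,0,4],[4,1,3,0]])]),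
([5,4,5,5],[(2,0),(0,1),(1,2),(1,3),(1,1),(2,1)],[]),
([5,4,5,5],[(1,0),(0,1),(1,2),(1,3),(1,1),(0,0)],[(152,[0,2,1,3],[[3,2,4,0,1],[3,2,1,4],[1,2,0,3],[2,0,3,1]]),(158,[1,0,2,3],[[0,1,2,4],[3,1,2,4,0],[4,1,2,0],[0,1,4,3]]),(158,[1,0,2,3],[[2,1,0,3],[2,1,0,3,4],[2,1,0,3],[0,1,2,3]])]),
([5,4,5,4],[(3,0),(3,1),(3,2),(3,3),(1,1),(2,1)],[(160,[0,1,2,3],[[0,1,2,3,4],[0,1,2,3],[0,1,2,3,4],[0,1,2,3,4]]),(161,[0,1,2,3],[[0,1,2,3,4],[0,1,2,3],[0,1,2,3,4],[0,1,2,3,4]]),(163,[0,1,2,3],[[0,1,2,3,4],[0,1,2,3],[0,1,2,3,4],[0,1,2,3,4]]),(162,[0,1,2,3],[[0,1,2,3,4],[0,1,2,3],[0,1,2,3,4],[0,1,2,3,4]])]),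
([5,4,5,4],[(3,0),(2,1),(0,0),(1,1),(0,1),(3,1)],[(152,[1,2,0,3],[[0,1,2,4],[3,1,2,0],[4,1,2,0,3],[0,1,2,3]]),(164,[0,1,2,3],[[0,1,2,3,4],[0,1,2,3],[0,1,2,3,4],[0,1,2,3]])]),
([5,5,5,4],[(3,0),(2,1),(0,0),(3,2),(3,1),(3,3)],[(151,[0,1,3,2],[[0,3,2,4,1],[4,3,2,1],[2,1,0,3],[1,2,0,3,4]]),(151,[0,1,3,2],[[0,4,2,1,3],[4,1,2,3],[2,0,4,3],[1,2,0,3,4]])]),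
([5,4,5,4],[(3,0),(1,1),(3,2),(1,2),(1,3),(1,0)],[(166,[0,1,2,3],[[0,1,2,3,4],[0,1,2,3,4],[0,1,2,3,4],[0,1,2,3]]),(158,[0,1,2,3],[[1,2,4,0,3],[3,2,1,4],[4,2,0,1],[2,0,3,1]]),(158,[0,1,2,3],[[1,2,4,0,3],[3,2,1,4],[4,2,0,1],[2,0,4,1]]),(152,[1,0,2,3],[[2,1,0,3],[2,1,0,3,4],[2,1,0,3],[0,1,2,3]])]),
([5,4,4,4],[(2,0),(2,1),(2,2),(2,3),(1,2),(1,1)],[(151,[0,1,2,3],[[0,1,2,3,4],[0,1,2,3],[4,1,2,3,0],[0,1,2,3]]),(165,[0,1,2,3],[[0,1,2,3,4],[0,1,2,3],[0,1,2,3,4],[0,1,2,3]]),(151,[0,1,2,3],[[0,1,2,3,4],[4,1,2,3],[4,1,2,3,0],[0,1,2,3]]),(142,[0,2,1,3],[[1,2,3,0,4],[0,2,3,1],[4,2,1,3,0],[2,0,3,1]]),(167,[0,1,2,3],[[0,1,2,3,4],[0,1,2,3],[0,1,2,3,4],[0,1,2,3]]),(151,[1,0,2,3],[[2,1,0,3],[2,1,0,3,4],[2,1,0,3,4],[0,1,2,3]]),(151,[0,1,2,3],[[2,1,0,3,4],[0,1,2,3],[4,1,3,2,0],[3,1,2,0]]),(151,[0,1,2,3],[[0,3,2,1,4],[0,3,2,1],[0,1,2,3,4],[0,2,1,3]])]),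
([5,5,5,4],[(3,0),(2,1),(0,0),(3,2),(0,3),(1,3)],[(168,[0,1,2,3],[[2,1,0,3,4],[2,1,0,3],[2,1,0,4],[0,1,2,3]]),(168,[0,1,2,3],[[2,1,0,3,4],[2,1,4,3],[2,1,4,0],[0,1,2,3]])]),
([5,5,5,4],[(0,0),(2,1),(3,0),(3,2),(3,3),(3,1)],[(168,[0,1,2,3],[[2,1,0,3,4],[2,1,0,3],[2,1,0,3],[0,1,2,4]])]),
([5,5,5,5],[(0,0),(1,1),(1,2),(2,1),(2,3),(1,0)],[]),
([5,4,5,5],[(0,0),(1,1),(1,2),(1,3),(1,0),(3,0)],[(168,[1,0,2,3],[[2,4,0,3],[2,4,0,3,1],[2,1,0,3],[0,1,2,3]]),(171,[0,1,2,3],[[0,1,2,3,4],[0,1,2,3,4],[0,1,2,3,4],[0,1,2,3,4]])]),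
([5,4,5,5],[(3,0),(1,1),(3,2),(0,0),(0,4),(1,0)],[(168,[1,3,2,0],[[2,1,0,3],[2,1,3,0],[2,1,3,0],[0,1,3,2,4]]),(172,[0,1,2,3],[[0,1,2,3,4],[0,1,2,3],[0,1,2,3,4],[0,1,2,3,4]])]),
([5,4,5,4],[(3,0),(2,1),(0,0),(3,2),(3,3),(3,1)],[(168,[1,3,2,0],[[2,1,0,3],[2,1,3,0],[2,1,3,0],[0,1,3,2,4]]),(168,[0,1,2,3],[[2,1,0,3,4],[2,1,0,3],[2,1,0,3],[0,1,2,4]]),(168,[1,3,2,0],[[2,3,0,1],[2,3,1,0],[2,1,3,0],[0,2,3,1,4]])]),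
([5,4,5,4],[(0,0),(3,1),(3,0),(3,2),(2,1),(3,3)],[(168,[0,1,2,3],[[2,1,0,3,4],[2,1,0,3],[2,1,0,3],[0,1,2,4]])]),
([5,4,4,4],[(0,0),(1,1),(3,0),(1,3),(2,1),(1,0)],[]),
([5,4,5,4],[(1,0),(3,1),(3,0),(3,2),(0,0),(1,1)],[(174,[0,1,2,3],[[0,1,2,3,4],[0,1,2,3],[0,1,2,3,4],[0,1,2,3]]),(168,[1,3,2,0],[[2,1,0,3],[2,1,3,0],[2,1,3,0],[0,1,3,2,4]]),(175,[0,1,2,3],[[0,1,2,3,4],[0,1,2,3],[0,1,2,3,4],[0,1,2,3]]),(173,[0,1,2,3],[[0,1,2,3,4],[0,1,2,3],[0,1,2,3,4],[0,1,2,3,4]]),(176,[0,1,2,3],[[0,1,2,3,4],[0,1,2,3],[0,1,2,4],[0,1,2,3]]),(168,[1,3,2,0],[[2,4,0,1],[2,3,1,0],[2,1,3,0],[0,4,3,1,2]]),(170,[0,1,2,3],[[0,1,2,3,4],[0,1,2,3,4],[0,1,2,3,4],[0,1,2,3]]),(168,[1,0,2,3],[[2,4,0,3],[2,4,0,3,1],[2,1,0,3],[0,4,2,3]])]),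
([5,4,5,4],[(0,0),(2,1),(3,0),(1,1),(0,1),(3,1)],[(168,[0,1,2,3],[[2,1,0,3,4],[2,1,0,3],[2,1,0,4],[0,1,2,3]]),(158,[3,2,0,1],[[0,1,4,2],[0,1,2,3],[0,1,3,2,4],[0,1,3,2]])]),
([5,5,5,4],[(0,0),(2,1),(3,0),(3,2),(3,1),(3,3)],[]),
([5,4,5,4],[(0,0),(1,1),(1,2),(1,3),(1,0),(0,4)],[(168,[1,0,2,3],[[2,1,0,3],[2,1,0,3,4],[2,1,0,3],[0,1,2,3]]),(151,[1,0,2,3],[[2,1,0,3],[2,1,0,3,4],[2,1,0,3,4],[0,1,2,3]]),(179,[0,1,2,3],[[0,1,2,3,4],[0,1,2,3,4],[0,1,2,3,4],[0,1,2,3]]),(168,[1,0,2,3],[[2,3,0,1],[2,3,0,1,4],[2,1,0,3],[0,2,1,3]])]),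
([5,5,5,4],[(3,0),(2,1),(3,3),(3,2),(3,1),(0,0)],[(168,[1,3,2,0],[[2,1,0,3],[2,1,3,0],[2,1,3,0],[0,1,3,2,4]]),(168,[1,0,3,2],[[1,0,3,2],[1,0,3,2,4],[1,0,2,4],[1,0,2,4]])]),
([5,4,5,4],[(3,0),(1,1),(3,2),(1,2),(1,0),(1,3)],[(181,[0,1,2,3],[[0,1,2,3,4],[0,1,2,3,4],[0,1,2,3,4],[0,1,2,3]]),(158,[3,0,2,1],[[0,1,3,2],[2,1,0,3,4],[3,1,0,2],[3,1,0,2]]),(151,[1,0,3,2],[[2,1,0,3],[2,0,4,3,1],[2,4,1,3],[0,2,4,3,1]]),(151,[0,2,1,3],[[0,1,2,4,3],[2,1,4,0,3],[3,1,0,2],[3,1,2,0]])]),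
([5,4,4,4],[(2,0),(2,1),(1,2),(2,2),(2,3),(1,1)],[(180,[0,1,2,3],[[0,1,2,3,4],[0,1,2,3],[0,1,2,3,4],[0,1,2,3]]),(177,[0,1,2,3],[[0,1,2,3,4],[0,1,2,3],[0,1,2,3,4],[0,1,2,3]]),(178,[0,1,2,3],[[0,1,2,3,4],[0,1,2,3],[0,1,2,3,4],[0,1,2,3]]),(169,[0,1,2,3],[[0,1,2,3,4],[0,1,2,3,4],[0,1,2,3,4],[0,1,2,3]]),(182,[0,1,2,3],[[0,1,2,3,4],[0,1,2,3],[0,1,2,3,4],[0,1,2,3]]),(158,[2,1,0,3],[[3,0,4,1],[3,0,1,2],[1,0,2,3,4],[2,0,3,1]]),(151,[1,0,2,3],[[2,1,0,3],[2,1,0,3,4],[2,1,0,3,4],[0,1,2,3]]),(151,[0,1,2,3],[[0,1,2,3,4],[2,1,0,3],[3,1,4,0,2],[3,1,2,0]]),(151,[0,1,2,3],[[0,3,2,1,4],[0,3,2,1],[0,1,2,3,4],[0,2,1,3]])]),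
([5,5,4,5],[(0,0),(2,1),(2,2),(2,3),(3,2),(3,1)],[]),
([5,5,4,5],[(0,0),(1,1),(3,0),(2,1),(3,1),(3,2)],[]),
([5,5,4,5],[(0,0),(1,1),(3,0),(2,1),(3,1),(3,2)],[]),
([5,5,4,5],[(0,0),(0,1),(1,2),(2,1),(1,1),(3,1)],[(185,[0,1,2,3],[[0,1,2,3,4],[0,1,2,3,4],[0,1,2,3],[0,1,2,3,4]]),(186,[0,1,2,3],[[0,1,2,3,4],[0,1,2,3,4],[0,1,2,3],[0,1,2,3,4]]),(142,[0,1,2,3],[[0,1,2,3,4],[0,1,2,3,4],[0,1,2,3],[0,1,2,3]])]),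
([5,5,4,5],[(0,0),(2,1),(3,0),(3,2),(0,3),(1,3)],[(184,[0,1,2,3],[[0,1,2,3,4],[0,1,2,3,4],[0,1,2,3],[0,1,2,3,4]]),(187,[0,1,2,3],[[0,1,2,3,4],[0,1,2,3,4],[0,1,2,3],[0,1,2,3,4]])]),
([3,5,4,5],[(0,0),(0,1),(2,2),(2,1),(1,1),(3,1)],[]),
([5,5,4,4],[(3,0),(1,1),(3,2),(3,3),(3,1),(2,1)],[(188,[0,1,2,3],[[0,1,2,3,4],[0,1,2,3,4],[0,1,2,3],[0,1,2,3,4]]),(189,[0,1,2,3],[[0,1,2],[0,1,2,4,3],[0,1,2,3],[0,1,3,2,4]]),(168,[1,0,3,2],[[3,0,1,2],[3,0,1,2,4],[1,0,2,3],[2,0,1,4]]),(168,[1,2,3,0],[[4,1,0,3],[1,3,2,0],[3,2,1,0],[0,4,3,2,1]])]),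
([5,4,4,4],[(1,0),(1,1),(1,2),(2,1),(1,3),(3,0)],[(190,[0,1,2,3],[[0,1,2,3,4],[0,1,2,3,4],[0,1,2,3],[0,1,2,3]]),(168,[0,2,3,1],[[1,2,3,0,4],[1,2,3,4],[1,2,3,0],[1,0,2,3]]),(168,[1,0,2,3],[[2,1,0,3],[2,1,0,3,4],[2,1,0,3],[0,1,2,3]]),(168,[3,0,2,1],[[0,3,1,2],[2,3,0,1,4],[3,1,0,2],[3,2,0,1]]),(168,[0,2,3,1],[[1,2,3,0,4],[1,2,3,4],[1,2,3,4],[1,0,2,3]]),(183,[0,2,1,3],[[3,0,1,2,4],[4,2,1,3],[0,3,1,2],[1,3,0,2]]),(168,[1,0,2,3],[[2,3,0,1],[2,3,0,1,4],[2,1,0,3],[0,2,1,3]]),(168,[3,0,2,1],[[0,1,3,2],[2,1,0,3,4],[3,1,0,2],[3,1,0,2]]),(183,[0,2,1,3],[[3,0,1,2,4],[4,2,1,3],[4,3,1,2],[1,3,0,2]])]),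
([4,4,4,4],[(0,0),(2,1),(0,2),(0,1),(0,3),(1,2)],[(152,[0,1,2,3],[[0,1,2,3,4],[0,1,2,3],[0,1,2,3],[0,1,2,3]]),(158,[0,1,2,3],[[0,1,2,3,4],[0,1,2,3],[0,1,2,3],[0,1,2,3]]),(168,[0,1,2,3],[[0,1,2,3,4],[0,1,2,3],[0,1,2,3],[0,1,2,3]]),(191,[0,1,2,3],[[0,1,2,3,4],[0,1,2,3],[0,1,2,3],[0,1,2,3]]),(183,[0,1,2,3],[[0,1,2,3,4],[0,1,2,3],[0,1,2,3],[0,1,2,3]]),(168,[0,3,2,1],[[0,3,2,1,4],[2,3,1,0],[3,1,2,0],[3,2,0,1]]),(151,[0,1,2,3],[[0,1,2,3,4],[0,1,2,3],[0,1,2,3,4],[0,1,2,3]]),(168,[0,1,2,3],[[0,3,2,1,4],[0,3,2,1],[0,1,2,3],[0,2,1,3]]),(191,[0,1,2,3],[[0,3,2,1,4],[0,3,2,1],[0,1,2,3],[0,2,1,3]]),(142,[0,1,2,3],[[0,1,2,3,4],[0,1,2,3,4],[0,1,2,3],[0,1,2,3]]),(183,[0,1,2,3],[[0,3,2,1,4],[0,3,2,1],[0,1,2,3],[0,2,1,3]]),(168,[0,3,2,1],[[0,1,2,3,4],[2,1,3,0],[3,1,2,0],[3,1,0,2]]),(151,[0,1,2,3],[[0,3,2,1,4],[0,3,2,1],[0,1,2,3,4],[0,2,1,3]])]),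
([4,4,3,3],[(3,0),(3,1),(3,2),(2,1),(2,0),(2,2)],[(192,[0,1,2,3],[[0,1,2,3],[0,1,2,3],[0,1,2,3],[0,1,2,3]]),(192,[0,1,3,2],[[1,0,3,2],[1,0,3,2],[1,0,2,3],[1,0,2,3]]),(192,[0,1,2,3],[[2,1,0,3],[2,1,0,3],[2,1,0,3],[0,1,2,3]]),(192,[0,1,3,2],[[3,0,1,2],[3,0,1,2],[1,0,2,3],[2,0,1,3]])]),
([4,4,4,4],[(1,0),(2,1),(2,2),(1,3),(1,1),(1,2)],[(193,[0,1,2,3],[[2,1,0,3],[2,1,4,0],[2,1,3],[0,1,2]]),(193,[0,1,2,3],[[3,2,1,0],[0,2,4,3],[1,2,0],[2,0,3]]),(193,[0,1,2,3],[[3,2,1,0],[0,2,4,3],[1,2,3],[2,0,3]]),(193,[0,1,2,3],[[0,1,2,3],[3,1,4,0],[2,1,0],[3,1,2]]),(193,[0,1,2,3],[[1,2,3,0],[1,2,4,3],[1,2,0],[1,0,3]]),(193,[0,1,2,3],[[1,2,3,0],[1,2,4,3],[1,2,3],[1,0,3]]),(193,[0,1,2,3],[[1,2,3,0],[1,2,4,3],[1,2,4],[1,0,3]])]),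
([4,4,4,4],[(3,0),(3,1),(3,2),(3,3),(0,2),(0,3)],[(193,[2,0,3,1],[[3,2,0],[0,2,1,3],[1,2,3],[2,0,4,1]]),(193,[0,2,3,1],[[1,2,3,0],[1,2,0],[1,2,3],[1,0,2,4]]),(193,[0,2,3,1],[[2,1,0,3],[2,1,3],[2,1,0],[0,1,4,3]]),(193,[2,0,3,1],[[3,2,1],[1,2,0,3],[0,2,3],[3,0,4,1]]),(193,[0,2,3,1],[[0,2,3,1],[0,3,1],[0,3,2],[0,1,3,4]]),(193,[0,2,3,1],[[2,0,1,3],[3,0,2],[3,0,1],[1,0,4,2]])]),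
([4,4,4,3],[(3,0),(3,1),(3,2),(0,2),(1,0),(2,1)],[(193,[0,2,3,1],[[1,2,3,0],[1,2,0],[1,2,3],[1,0,2,3]]),(194,[0,1,2,3],[[0,1,2,3],[0,1,2,3],[0,1,2,3],[0,1,2,3]]),(194,[0,2,1,3],[[1,0,2,3],[1,0,3,2],[1,0,3,2],[1,0,2,3]]),(193,[0,2,3,1],[[2,0,1,3],[3,0,2],[3,0,1],[1,0,3,2]]),(195,[0,1,2,3],[[0,1,2,3],[0,1,2,3],[0,1,2,3],[0,1,2,3]]),(193,[0,2,1,3],[[0,1,2,3],[0,1,2],[0,1,2,3],[0,1,3]]),(193,[0,1,2,3],[[1,0,2,3],[1,0,3,2],[1,0,3],[1,0,3]])]),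
([4,4,4,3],[(2,0),(3,1),(2,2),(2,1),(3,0),(2,3)],[(193,[0,2,1,3],[[1,2,3,0],[1,2,3],[1,2,3,4],[1,0,2]]),(193,[0,2,1,3],[[1,2,3,0],[1,2,3],[1,2,3,4],[1,0,3]]),(193,[0,2,1,3],[[0,3,2,1],[0,3,2],[0,3,2,4],[0,1,2]]),(193,[0,2,1,3],[[1,0,3,2],[1,0,3],[1,0,3,4],[1,0,2]]),(193,[0,2,1,3],[[1,0,3,2],[1,0,3],[1,0,3,4],[1,0,3]]),(193,[0,2,1,3],[[0,1,2,3],[0,1,2],[0,1,2,4],[0,1,2]]),(193,[0,2,1,3],[[0,1,2,3],[0,1,2],[0,1,2,4],[0,1,3]])]),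
([4,4,5,4],[(0,0),(2,1),(0,2),(0,1),(3,0),(2,2)],[(193,[0,2,1,3],[[0,2,1,3],[1,2,0],[3,2,4,0],[2,0,1]]),(193,[2,3,0,1],[[2,1,3],[2,1,0],[2,1,0,3],[0,1,2,3]]),(197,[0,3,1,2],[[3,1,2,0],[2,1,0],[0,1,2,3],[3,1,0,2]]),(197,[0,3,1,2],[[3,1,2,0],[2,1,0],[0,1,2,3],[4,1,0,2]]),(197,[0,3,1,2],[[4,3,2,1],[2,0,3],[0,1,2,3],[1,2,0,3]]),(193,[2,3,0,1],[[2,1,4],[2,1,0],[2,1,0,3],[0,1,2,3]]),(197,[0,3,1,2],[[4,1,2,0],[2,1,0],[0,1,2,3],[3,1,0,2]]),(197,[0,3,1,2],[[4,1,2,0],[2,1,0],[0,1,2,3],[4,1,0,2]]),(196,[1,0,2,3],[[1,0,3,2],[1,0,2,3],[1,0,3,2],[1,0,2]]),(193,[0,2,1,3],[[1,2,0,3],[3,2,1],[0,2,3,4],[2,0,1]]),(193,[0,2,1,3],[[1,2,0,3],[3,2,1],[0,2,3,5],[2,0,1]]),(193,[0,2,1,3],[[3,2,1,4],[0,2,3],[1,2,0,3],[2,0,1]]),(197,[0,3,2,1],[[4,3,2,1],[2,0,1],[4,1,2,3],[1,2,0,3]]),(197,[0,3,2,1],[[4,3,2,1],[2,0,1],[5,1,2,3],[1,2,0,3]])]),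
([4,3,5,4],[(0,0),(0,1),(0,2),(1,0),(1,2),(3,0)],[(196,[0,3,1,2],[[3,2,1,0],[1,2,0],[0,2,1,4],[3,0,1,2]]),(196,[0,3,1,2],[[3,0,1,2],[1,0,2],[2,0,1,3],[2,0,1,3]]),(196,[0,3,1,2],[[4,0,1,2],[1,0,2],[2,0,1,3],[2,0,1,3]])]),
([4,4,4,4],[(2,0),(2,1),(0,2),(2,3),(2,2),(3,0)],[(197,[0,3,2,1],[[0,3,2,1],[2,0,1],[4,1,2,3],[1,2,0,3]]),(193,[2,3,0,1],[[2,1,0],[2,1,0],[2,1,4,3],[0,1,2,3]]),(193,[0,2,1,3],[[3,2,1,0],[0,2,3],[1,2,0,4],[2,0,3]]),(197,[1,3,0,2],[[0,3,2,1],[2,0,1],[4,1,2,3],[4,2,0,3]]),(193,[0,2,1,3],[[3,2,0,1],[0,2,1],[1,2,3,4],[2,0,1]]),(199,[0,1,2,3],[[0,1,2,3],[0,1,2],[0,1,2,3,4],[0,1,2,3]]),(197,[1,3,0,2],[[1,3,2,0],[2,0,3],[4,1,2,0],[3,2,0,1]]),(197,[1,3,0,2],[[1,3,2,0],[2,0,3],[4,1,2,0],[4,2,0,1]]),(198,[0,1,2,3],[[0,1,2,3],[0,1,2,3],[0,1,2,3,4],[0,1,2,3]]),(193,[0,2,1,3],[[1,2,0,3],[3,2,1],[0,2,3,4],[2,0,1]]),(197,[0,3,2,1],[[4,3,2,1],[2,0,1],[4,1,2,3],[1,2,0,3]])]),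
([4,4,4,4],[(2,0),(2,1),(0,2),(2,3),(2,2),(3,0)],[(197,[0,3,2,1],[[0,3,2,1],[2,0,1],[4,1,2,3],[1,2,0,3]]),(193,[2,3,0,1],[[2,1,0],[2,1,0],[2,1,4,3],[0,1,2,3]]),(193,[0,2,1,3],[[3,2,1,0],[0,2,3],[1,2,0,4],[2,0,3]]),(197,[1,3,0,2],[[0,3,2,1],[2,0,1],[4,1,2,3],[4,2,0,3]]),(193,[0,2,1,3],[[3,2,0,1],[0,2,1],[1,2,3,4],[2,0,1]]),(196,[3,1,0,2],[[1,0,2],[2,0,1,3],[4,0,1,2],[2,0,1,3]]),(196,[1,3,2,0],[[1,3,2,0],[2,0,1],[4,1,2,0],[3,2,0,1]]),(196,[3,1,0,2],[[1,0,2],[2,0,1,3],[4,0,1,2],[4,0,1,3]]),(193,[2,0,1,3],[[0,1,2],[0,1,2,3],[0,1,2,4],[0,1,2]]),(197,[0,3,2,1],[[2,1,3,0],[2,3,0],[2,0,4,1],[0,2,1,3]]),(197,[0,3,2,1],[[2,1,4,0],[2,3,0],[2,0,4,1],[0,2,1,3]])]),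
([4,4,4,4],[(3,0),(0,1),(3,2),(0,2),(1,2),(2,2)],[(201,[0,1,2,3],[[0,1,2,3],[0,1,2,3],[0,1,2,3],[0,1,2,3]]),(200,[0,1,2,3],[[0,1,2,3],[0,1,2,3],[0,1,2,3],[0,1,2,3]]),(201,[2,0,1,3],[[0,1,2,3],[0,1,2,3],[0,1,2,3],[0,1,2,3]]),(197,[0,1,2,3],[[0,1,2,3],[0,1,2,3],[0,1,2,3],[0,1,2]])]),
([5,5,4,4],[(1,0),(2,1),(1,2),(2,0),(2,2),(3,0)],[(196,[0,1,2,3],[[0,1,2,3],[0,4,2,1],[0,1,2,3],[0,1,2]]),(197,[3,0,2,1],[[2,1,0],[2,3,1,0],[2,0,4,3],[0,2,1,3]]),(196,[0,1,2,3],[[0,1,2,3],[0,1,2,3],[0,1,2,3],[0,1,2]]),(196,[0,1,2,3],[[0,1,2,3],[0,1,2,3],[0,1,2,4],[0,1,2]]),(196,[0,1,2,3],[[0,1,2,3],[0,1,2,4],[0,1,2,3],[0,1,2]]),(197,[3,0,2,1],[[2,1,0],[2,3,4,0],[2,0,4,3],[0,2,1,3]]),(196,[0,1,2,3],[[0,1,2,3],[0,1,2,5],[0,1,2,3],[0,1,2]]),(197,[3,0,2,1],[[2,1,0],[2,3,5,0],[2,0,4,3],[0,2,1,3]])]),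
([5,4,4,4],[(3,0),(1,1),(1,0),(1,3),(1,2),(2,2)],[(203,[0,1,2,3],[[0,1,2,3,4],[0,1,2,3,4],[0,1,2,3],[0,1,2,3]]),(193,[2,0,1,3],[[1,2,0],[0,2,3,4],[3,2,1,0],[3,0,1]]),(197,[3,0,1,2],[[2,1,0],[4,1,2,0],[0,1,2,3],[2,1,0,3]]),(193,[2,0,3,1],[[1,2,3],[1,2,0,4],[1,2,0],[1,0,2,3]]),(197,[3,0,1,2],[[2,1,0],[4,1,2,0],[0,1,2,3],[4,1,0,3]]),(197,[3,0,1,2],[[2,1,3],[4,3,2,0],[1,0,2,3],[1,2,0,3]]),(193,[2,3,0,1],[[1,2,0],[0,2,4],[3,2,0,1],[3,0,1,2]]),(193,[2,0,3,1],[[1,2,0],[3,2,0,4],[0,2,1],[2,0,1,3]]),(197,[3,0,1,2],[[2,1,3],[4,3,2,0],[1,0,2,3],[4,2,0,3]]),(193,[2,0,1,3],[[3,2,1],[0,2,3,4],[1,2,0,3],[2,0,1]]),(197,[3,0,2,1],[[2,1,0],[2,3,4,0],[2,0,4,3],[0,2,1,3]])]),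
([4,4,4,4],[(0,0),(0,1),(2,2),(0,3),(0,2),(3,0)],[(204,[0,1,2,3],[[0,1,2,3,4],[0,1,2,3],[0,1,2,3],[0,1,2,3]]),(197,[0,3,1,2],[[4,3,2,1],[2,0,3],[0,1,2,3],[1,2,0,3]]),(193,[0,2,1,3],[[1,2,0,4],[0,2,3],[3,2,1,0],[3,0,2]]),(193,[0,2,3,1],[[1,2,3,4],[1,2,0],[1,2,0],[1,0,2,3]]),(197,[0,3,1,2],[[4,3,2,1],[2,0,3],[0,1,2,3],[4,2,0,3]]),(193,[2,3,0,1],[[2,1,4],[2,3,0],[2,0,1,3],[0,2,1,3]]),(197,[0,3,1,2],[[4,1,2,0],[2,0,3],[1,3,2,0],[2,3,0,1]]),(193,[0,2,3,1],[[1,2,0,4],[3,2,0],[0,2,1],[2,0,1,3]]),(197,[0,3,1,2],[[4,1,2,0],[2,0,3],[1,3,2,0],[4,3,0,1]]),(197,[0,3,1,2],[[4,0,2,1],[2,3,0],[3,1,2,0],[1,3,0,2]]),(197,[0,3,2,1],[[2,1,4,0],[2,3,0],[2,0,4,1],[0,2,1,3]])]),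
([4,4,4,4],[(3,0),(0,1),(2,1),(0,2),(2,2),(1,2)],[(202,[0,1,2,3],[[0,1,2,3],[0,1,2,3],[0,1,2,3],[0,1,2,3]]),(205,[0,1,2,3],[[0,1,2,3],[0,1,2,3],[0,1,2,3],[0,1,2,3]]),(202,[0,2,1,3],[[0,1,2,3],[0,1,2,3],[0,1,2,3],[0,1,3,2]]),(197,[0,1,2,3],[[0,1,2,3],[0,1,2,3],[0,1,2,3],[0,1,2]])]),
([5,4,5,4],[(2,0),(0,1),(0,2),(2,1),(3,0),(2,2)],[(197,[0,3,2,1],[[0,3,2,1],[2,0,1],[3,1,2,4],[1,2,0,3]]),(197,[0,3,1,2],[[3,2,1,0],[1,2,0],[0,2,1,3],[3,0,1,2]]),(197,[0,3,2,1],[[0,4,2,3],[2,0,1],[3,0,2,1],[3,1,0,2]]),(197,[0,3,1,2],[[3,2,1,0],[1,2,0],[0,2,1,3],[3,0,1,4]]),(197,[0,3,2,1],[[0,3,2,1],[2,0,1],[4,1,2,3],[1,2,0,3]]),(197,[0,3,1,2],[[3,2,1,0],[1,2,0],[0,2,1,4],[3,0,1,2]]),(197,[0,3,2,1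],[[0,4,2,3],[2,0,1],[4,0,2,1],[3,1,0,2]]),(197,[0,3,1,2],[[3,2,1,0],[1,2,0],[0,2,1,4],[3,0,1,4]]),(197,[0,3,2,1],[[0,3,2,1],[2,0,1],[5,1,2,3],[1,2,0,3]]),(197,[0,3,1,2],[[3,2,1,0],[1,2,0],[0,2,1,5],[3,0,1,2]]),(197,[0,3,2,1],[[0,4,2,3],[2,0,1],[5,0,2,1],[3,1,0,2]]),(197,[0,3,1,2],[[3,2,1,0],[1,2,0],[0,2,1,5],[3,0,1,4]]),(206,[0,3,2,1],[[3,1,2,4],[2,3,0,1],[3,0,2,1],[1,2,0,3]]),(206,[0,3,2,1],[[3,1,2,4],[2,3,0,1],[4,0,2,1],[1,2,0,3]]),(196,[1,0,2,3],[[1,0,3,2],[1,0,2,3],[1,0,5,2],[1,0,2]]),(206,[1,0,2,3],[[1,0,4,3],[1,0,2,3],[1,0,3,4],[1,0,2,3]]),(206,[1,0,2,3],[[1,0,4,3],[1,0,2,3],[1,0,4,3],[1,0,2,3]]),(206,[1,0,2,3],[[1,0,4,3],[1,0,2,3],[1,0,5,3],[1,0,2,3]]),(206,[1,0,2,3],[[1,0,5,3],[1,0,2,3],[1,0,3,4],[1,0,2,3]]),(206,[1,0,2,3],[[1,0,5,3],[1,0,2,3],[1,0,4,3],[1,0,2,3]]),(206,[1,0,2,3],[[1,0,5,3],[1,0,2,3],[1,0,5,3],[1,0,2,3]])]),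
([4,5,4,4],[(0,0),(0,1),(0,2),(0,3),(3,0),(2,2)],[(207,[0,2,1,3],[[0,1,2,3,4],[0,1,2,3,4],[0,1,2,3],[0,1,3,2]]),(193,[0,2,1,3],[[0,1,2,4],[0,1,2],[0,1,2,3],[0,1,2]]),(197,[0,3,1,2],[[4,3,2,1],[2,0,3],[0,1,2,3],[1,2,0,3]]),(193,[2,3,0,1],[[2,1,4],[2,1,0],[2,1,0,3],[0,1,2,3]]),(193,[0,2,3,1],[[1,2,3,4],[1,2,0],[1,2,0],[1,0,2,3]]),(197,[0,3,1,2],[[4,3,2,1],[2,0,3],[0,1,2,3],[4,2,0,3]]),(193,[0,2,1,3],[[1,2,3,4],[0,2,1],[3,2,0,1],[3,0,1]]),(196,[1,3,2,0],[[1,4,0,2],[0,2,1],[3,1,0,2],[3,2,0,1]]),(196,[0,1,3,2],[[4,0,1,2],[2,0,1,3],[1,0,2],[3,0,1,2]]),(196,[0,1,3,2],[[4,0,1,2],[2,0,1,3],[1,0,2],[4,0,1,2]]),(196,[1,0,2,3],[[1,0,4,2],[1,0,2,3],[1,0,3,2],[1,0,2]]),(206,[1,0,2,3],[[1,0,4,3],[1,0,2,3],[1,0,4,3],[1,0,2,3]])]),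
([4,5,4,4],[(2,0),(2,1),(2,2),(1,0),(3,0),(1,2)],[(193,[2,0,1,3],[[0,1,2],[0,4,2,1],[0,1,2,3],[0,3,2]]),(193,[2,0,1,3],[[0,1,2],[0,4,2,1],[0,1,2,4],[0,3,2]]),(193,[2,0,1,3],[[3,2,1],[0,2,3,1],[1,2,0,3],[2,0,3]]),(193,[2,0,1,3],[[3,2,1],[0,2,3,1],[1,2,0,4],[2,0,3]]),(193,[2,0,1,3],[[3,2,1],[0,2,3,4],[1,2,0,3],[2,0,1]]),(193,[2,0,1,3],[[3,2,1],[0,2,3,4],[1,2,0,4],[2,0,1]])]),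
([4,4,4,4],[(1,0),(1,1),(0,2),(1,3),(1,2),(3,0)],[(197,[0,2,3,1],[[0,3,2,1],[4,1,2,3],[2,0,1],[1,3,0,2]]),(193,[0,1,2,3],[[1,2,3,0],[0,2,1,4],[3,2,0],[3,0,2]]),(197,[0,1,3,2],[[3,2,1,0],[0,2,1,4],[1,2,0],[2,0,1,3]]),(197,[0,1,3,2],[[3,2,1,0],[0,2,1,4],[1,2,0],[2,0,1,4]]),(193,[2,0,3,1],[[2,3,1],[2,0,4,1],[2,1,0],[0,2,1,3]]),(196,[1,2,3,0],[[1,3,2,0],[4,1,2,0],[2,0,1],[2,3,0,1]]),(196,[0,1,3,2],[[3,2,1,0],[0,2,1,4],[1,2,0],[2,0,1,3]]),(196,[0,1,3,2],[[3,2,1,0],[0,2,1,4],[1,2,0],[2,0,1,4]]),(209,[0,1,2,3],[[0,1,2,3],[0,1,2,3,4],[0,1,2,3],[0,1,2,3]]),(208,[0,1,2,3],[[0,1,2,3],[0,1,2,3,4],[0,1,2,3],[0,1,2,3]]),(196,[1,2,0,3],[[1,0,3,2],[1,0,4,2],[1,0,2,3],[1,0,3]]),(206,[1,0,2,3],[[1,0,4,3],[1,0,4,3],[1,0,2,3],[1,0,2,3]])]),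
([4,4,4,4],[(1,0),(0,1),(0,2),(3,0),(1,2),(2,2)],[(202,[0,1,2,3],[[0,1,2,3],[0,1,2,3],[0,1,2,3],[0,1,2,3]]),(206,[0,1,2,3],[[0,1,2,3],[0,1,2,3],[0,1,2,3],[0,1,2,3]]),(210,[0,1,2,3],[[0,1,2,3],[0,1,2,3],[0,1,2,3],[0,1,2,3]]),(193,[0,2,1,3],[[0,1,2,3],[0,1,2],[0,1,2,3],[0,1,2]]),(193,[0,2,1,3],[[0,1,2,4],[0,1,2],[0,1,2,3],[0,1,2]]),(193,[0,1,2,3],[[0,1,2,3],[0,1,2,3],[0,1,2],[0,1,3]]),(193,[0,1,2,3],[[0,1,2,4],[0,1,2,3],[0,1,2],[0,1,3]]),(197,[0,1,2,3],[[0,1,2,3],[0,1,2,3],[0,1,2,3],[0,1,2]])]),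
([4,4,3,3],[(3,0),(3,1),(3,2),(2,1),(2,2),(2,0)],[(193,[0,2,1,3],[[3,2,1,0],[0,2,3],[1,2,0,3],[2,0,3]]),(196,[1,3,2,0],[[1,3,2,0],[2,0,1],[3,1,2,0],[3,2,0,1]]),(211,[0,1,2,3],[[0,1,2,3],[0,1,2,3],[0,1,2,3],[0,1,2,3]]),(197,[3,0,1,2],[[1,2,0],[3,2,1,0],[0,2,1,3],[2,0,1,3]]),(193,[2,0,1,3],[[3,2,1],[0,2,3,1],[1,2,0,3],[2,0,3]])]),
([4,4,4,4],[(3,0),(1,1),(2,1),(3,1),(0,2),(0,1)],[(212,[0,2,3,1],[[3,2,1,0],[0,2,1],[1,2,3],[2,0,1,3]]),(212,[1,0,2,3],[[2,3,1,0],[3,2,1,0],[0,3,1],[1,0,3]]),(212,[1,0,2,3],[[2,3,1,0],[3,0,1,2],[0,2,1],[1,2,0]]),(212,[1,0,2,3],[[2,3,1,0],[3,0,1,2],[0,2,1],[1,3,0]]),(212,[1,0,2,3],[[2,3,1,0],[3,0,1,2],[0,2,1],[1,4,0]]),(212,[1,2,3,0],[[3,2,1,0],[0,2,1],[1,2,0],[2,0,1,3]]),(212,[1,0,2,3],[[2,3,1,4],[3,2,1,0],[0,3,1],[1,0,3]])]),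
([4,4,4,4],[(1,0),(1,1),(0,2),(2,1),(3,1),(0,1)],[(212,[0,2,3,1],[[3,2,1,0],[0,2,1],[1,2,3],[2,0,1,3]]),(193,[0,2,3,1],[[1,2,3,0],[1,2,0],[1,2,0],[1,0,2,3]]),(197,[0,1,3,2],[[3,2,1,0],[0,2,1,3],[1,2,0],[2,0,1,3]]),(193,[0,1,2,3],[[2,1,0,3],[2,1,3,0],[2,1,3],[0,1,2]]),(212,[1,2,3,0],[[3,2,1,0],[0,2,1],[1,2,0],[2,0,1,3]]),(193,[0,2,3,1],[[1,2,3,4],[1,2,0],[1,2,0],[1,0,2,3]]),(213,[0,1,2,3],[[0,1,2,3],[0,1,2,3],[0,1,2,3],[0,1,2,3]]),(212,[2,1,3,0],[[3,2,1],[0,2,1,3],[1,2,3],[2,0,1,3]]),(212,[2,1,3,0],[[3,2,1],[0,2,1,4],[1,2,3],[2,0,1,3]]),(193,[0,1,2,3],[[2,1,4,3],[2,1,3,0],[2,1,3],[0,1,2]])]),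
([4,4,3,3],[(2,0),(3,1),(2,2),(3,2),(2,1),(3,0)],[(193,[2,3,0,1],[[3,2,1],[0,2,3],[1,2,3,0],[2,0,3,1]]),(214,[0,1,2,3],[[0,1,2,3],[0,1,2,3],[0,1,2,3],[0,1,2,3]]),(196,[1,3,0,2],[[2,0,1,3],[1,0,2],[3,0,1,2],[3,0,1,2]]),(193,[0,2,1,3],[[0,1,2,3],[0,1,2],[0,1,2,3],[0,1,3]])]),
([4,4,3,3],[(2,0),(3,1),(3,0),(3,2),(2,1),(2,2)],[(212,[3,1,2,0],[[0,1,3],[0,1,2,3],[0,1,3],[0,1,3,2]]),(212,[3,0,2,1],[[1,0,3],[1,0,2,3],[1,0,3],[1,0,3,2]]),(193,[2,0,1,3],[[1,2,3],[1,2,3,0],[1,2,0,3],[1,0,3]]),(197,[3,0,2,1],[[2,3,0],[2,3,1,0],[2,0,3,1],[0,1,3,2]]),(193,[0,2,1,3],[[0,1,2,3],[0,1,2],[0,1,2,3],[0,1,3]])]),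
([4,3,3,3],[(3,0),(1,1),(1,0),(1,2),(2,1),(2,2)],[(212,[0,1,2,3],[[0,1,2,3],[0,1,2,3],[0,1,2],[0,1,2]]),(193,[2,0,1,3],[[0,1,2],[0,1,2,3],[0,1,2,3],[0,1,2]]),(215,[0,1,2,3],[[0,1,2,3],[0,1,2,3],[0,1,2],[0,1,2]]),(212,[0,1,3,2],[[3,2,1,0],[0,2,1,3],[1,2,0],[2,0,1]]),(193,[2,0,3,1],[[1,2,3],[1,2,0,3],[1,2,0],[1,0,2,3]]),(216,[0,1,2,3],[[0,1,2,3],[0,1,2,3],[0,1,2],[0,1,2]]),(196,[0,1,2,3],[[0,1,2,3],[0,1,2,3],[0,1,2,3],[0,1,2]]),(197,[0,1,2,3],[[0,1,2,3],[0,1,2,3],[0,1,2,3],[0,1,2]])]),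
([6,4,4,3],[(1,0),(0,1),(3,0),(3,1),(1,1),(2,1)],[]),
([5,4,4,3],[(3,0),(0,1),(2,2),(3,1),(2,1),(1,1)],[]),
([5,4,3,4],[(2,0),(1,1),(2,2),(0,2),(2,1),(0,1)],[(193,[0,1,2,3],[[1,3,0,4],[1,0,2,3],[1,2,3],[1,2,0]]),(193,[0,2,1,3],[[1,4,0,2],[1,3,0],[1,2,3,0],[1,0,2]]),(193,[0,1,2,3],[[1,2,0,3],[1,2,3,0],[1,2,3],[1,0,2]]),(193,[0,1,2,3],[[1,2,0,3],[1,2,4,0],[1,2,3],[1,0,2]]),(193,[0,2,1,3],[[1,4,3,2],[1,3,0],[1,2,3,0],[1,0,2]]),(193,[2,0,1,3],[[1,2,4],[1,2,0,3],[1,2,3,0],[1,0,2]]),(193,[0,2,1,3],[[1,4,5,2],[1,3,0],[1,2,3,0],[1,0,2]]),(193,[0,1,2,3],[[1,0,3,2],[1,0,2,3],[1,0,3],[1,0,2]]),(193,[0,2,1,3],[[1,0,3,2],[1,0,3],[1,0,3,2],[1,0,3]]),(193,[0,1,2,3],[[1,0,3,2],[1,0,4,3],[1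,0,3],[1,0,2]]),(193,[0,1,2,3],[[1,0,4,2],[1,0,2,3],[1,0,3],[1,0,2]]),(193,[0,1,2,3],[[1,2,4,3],[1,2,3,0],[1,2,3],[1,0,2]]),(193,[0,1,2,3],[[1,0,4,2],[1,0,4,3],[1,0,3],[1,0,2]]),(193,[0,1,2,3],[[1,0,5,2],[1,0,2,3],[1,0,3],[1,0,2]]),(193,[0,1,2,3],[[1,2,5,3],[1,2,3,0],[1,2,3],[1,0,2]]),(193,[0,1,2,3],[[1,0,5,2],[1,0,4,3],[1,0,3],[1,0,2]])]),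
([5,4,4,3],[(3,0),(3,1),(3,2),(1,1),(2,1),(0,1)],[(220,[0,1,2,3],[[0,1,2,3,4],[0,1,2,3],[0,1,2],[0,1,2,3]])]),
([5,4,4,3],[(1,0),(0,1),(3,0),(3,1),(1,1),(2,1)],[(221,[0,1,2,3],[[0,1,2,3,4],[0,1,2,3],[0,1,2,3],[0,1,2]])]),
([5,4,4,3],[(1,0),(0,1),(3,0),(3,1),(1,1),(2,1)],[]),
([5,3,3,4],[(1,0),(0,1),(1,2),(2,2),(1,1),(2,1)],[(193,[0,1,2,3],[[1,2,0,3],[1,2,3,0],[1,2,0],[1,0,2]]),(193,[0,1,2,3],[[1,2,0,3],[1,2,3,0],[1,2,3],[1,0,2]]),(193,[0,1,2,3],[[1,3,2,0],[1,0,3,2],[1,2,0],[1,2,3]]),(217,[0,2,1,3],[[3,2,1,4],[3,2,1],[0,2,1],[1,0,2]]),(193,[0,1,2,3],[[1,2,4,3],[1,2,3,0],[1,2,0],[1,0,2]]),(193,[0,1,2,3],[[1,2,5,3],[1,2,3,0],[1,2,0],[1,0,2]]),(193,[0,1,2,3],[[1,0,2,4],[1,0,3,2],[1,0,3],[1,0,2]]),(193,[0,1,2,3],[[1,0,3,4],[1,0,3,2],[1,0,3],[1,0,2]]),(193,[0,1,2,3],[[1,2,4,3],[1,2,3,0],[1,2,3],[1,0,2]]),(193,[0,1,2,3],[[1,0,5,4],[1,0,3,2],[1,0,3],[1,0,2]])]),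
([5,4,4,3],[(3,0),(3,1),(3,2),(1,1),(2,1),(0,1)],[(224,[0,1,2,3],[[0,1,2,3,4],[0,1,2],[0,1,2],[0,1,2,3]])]),
([5,4,4,3],[(3,0),(0,1),(2,2),(3,1),(2,1),(1,1)],[(225,[0,1,2,3],[[0,1,2,3,4],[0,1,2,3],[0,1,2,3],[0,1,2]])]),
([5,4,3,3],[(2,0),(3,1),(2,2),(2,1),(1,1),(0,1)],[(219,[0,1,2,3],[[0,1,2,3,4],[0,1,2,3],[0,1,2,3],[0,1,2]]),(222,[0,1,2,3],[[0,1,2,3,4],[0,1,2,3],[0,1,2,3],[0,1,2]]),(223,[0,1,2,3],[[0,1,2,3,4],[0,1,2,3],[0,1,2,3],[0,1,2]]),(222,[0,1,2,3],[[0,1,4,3,2],[0,1,3,2],[0,1,2,3],[0,1,2]]),(218,[0,1,2,3],[[0,1,2,3,4,5],[0,1,2,3],[0,1,2,3],[0,1,2]]),(226,[0,1,2,3],[[0,1,2,3,4],[0,1,2,3],[0,1,2,3],[0,1,2]]),(226,[0,1,2,3],[[0,1,4,3,2],[0,1,3,2],[0,1,2,3],[0,1,2]]),(189,[1,3,2,0],[[0,1,3,2,4],[0,1,4,2,3],[0,1,2,3],[0,1,2]])]),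
([4,4,4,4],[(3,0),(0,1),(3,2),(3,3),(3,1),(1,1)],[(193,[0,2,3,1],[[1,3,0,2],[1,0,2],[1,2,3],[1,2,4,3]]),(217,[1,2,3,0],[[0,2,1],[0,2,1],[1,2,3],[4,0,1,2]]),(193,[0,2,3,1],[[1,3,0,2],[1,0,3],[1,2,3],[1,2,4,3]]),(193,[0,2,3,1],[[1,3,0,2],[1,0,4],[1,2,3],[1,2,4,3]]),(227,[1,2,3,0],[[2,1,3,0],[2,1,0],[2,1,3],[0,1,2,3,4]]),(193,[2,0,3,1],[[1,0,2],[1,3,0,2],[1,2,3],[1,3,4,2]]),(193,[0,2,3,1],[[1,2,3,0],[1,2,0],[1,2,3],[1,0,4,2]]),(193,[0,2,3,1],[[1,2,4,0],[1,2,0],[1,2,3],[1,0,4,2]]),(193,[0,2,3,1],[[1,0,2,3],[1,0,2],[1,0,2],[1,0,4,2]]),(193,[0,1,2,3],[[3,1,0,2],[0,1,2,3],[2,1,3],[2,1,4]]),(193,[0,1,2,3],[[3,1,0,2],[0,1,2,4],[2,1,3],[2,1,4]]),(193,[0,1,2,3],[[0,1,2,3],[3,1,0,2],[2,1,3],[3,1,4]]),(193,[0,1,2,3],[[0,1,2,3],[0,1,2,3],[0,1,2],[0,1,4]]),(193,[0,1,2,3],[[0,1,2,3],[0,1,2,4],[0,1,2],[0,1,4]]),(193,[0,1,2,3],[[0,1,2,4],[3,1,0,2],[2,1,3],[3,1,4]]),(193,[0,1,2,3],[[0,1,2,4],[0,1,2,3],[0,1,2],[0,1,4]]),(193,[0,1,2,3],[[0,1,2,4],[0,1,2,4],[0,1,2],[0,1,4]])]),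
([4,4,5,4],[(0,0),(1,1),(2,2),(0,1),(2,1),(3,1)],[(228,[0,1,2,3],[[0,1,2,3],[0,1,2,3],[0,1,2,4],[0,1,2,3]]),(228,[0,3,1,2],[[0,1,3,2],[3,1,2,0],[2,1,4,0],[3,1,0,2]])]),
([4,4,4,4],[(0,0),(3,1),(2,2),(0,1),(2,1),(1,1)],[(228,[0,1,2,3],[[0,1,2,3],[0,1,2,3],[3,1,2,0],[0,1,2,3]]),(228,[0,3,1,2],[[0,1,3,2],[3,1,2,0],[2,1,0,3],[3,1,0,2]])]),
([4,4,4,4],[(3,0),(1,1),(2,2),(2,1),(3,1),(0,1)],[(230,[0,1,2,3],[[0,1,2,3],[0,1,2,3],[0,1,2,3],[0,1,2,3]]),(230,[0,1,2,3],[[0,1,2,3],[0,1,2,3],[3,1,2,0],[0,1,2,3]]),(229,[0,1,2,3],[[0,1,2,3],[0,1,2,3],[0,1,2,3,4],[0,1,2,3]]),(230,[1,0,2,3],[[0,1,2,3],[0,1,2,3],[0,1,2,3],[0,1,3,2]]),(230,[1,0,2,3],[[0,1,2,3],[0,1,2,3],[3,1,2,0],[0,1,3,2]]),(229,[1,0,2,3],[[0,1,2,3],[0,1,2,3],[0,1,2,3,4],[0,1,3,2]])]),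
([4,4,4,4],[(0,0),(2,1),(2,2),(0,1),(1,1),(3,1)],[(228,[0,1,2,3],[[0,1,2,3],[0,1,2,3],[0,1,2,3],[0,1,2,3]]),(228,[0,3,1,2],[[0,1,2,3],[3,1,0,2],[2,1,0,3],[3,1,2,0]]),(228,[0,1,2,3],[[0,1,3,2],[2,1,0,3],[3,1,2,0],[2,1,0,3]]),(228,[0,3,1,2],[[0,1,3,2],[3,1,2,0],[2,1,3,0],[3,1,0,2]])]),
([4,4,3,4],[(2,0),(0,1),(2,2),(2,1),(1,1),(3,1)],[(232,[0,1,2,3],[[0,1,2,3],[0,1,2,3],[0,1,2,3],[0,1,2,3]]),(231,[0,1,2,3],[[0,1,2,3],[0,1,2,3],[0,1,2,3],[0,1,2,3]]),(232,[1,0,2,3],[[0,1,2,3],[0,1,2,3],[0,1,2,3],[0,1,3,2]]),(232,[1,3,0,2],[[3,1,0,2],[0,1,3,2],[2,1,0,3],[2,1,0,3]])]),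
([4,4,4,4],[(0,0),(3,1),(2,2),(2,3),(0,1),(2,1)],[(193,[0,2,1,3],[[3,1,0,2],[0,1,2],[2,1,3,0],[2,1,0]]),(193,[0,2,3,1],[[0,1,3,2],[0,1,2],[2,1,0],[3,1,0,2]]),(193,[0,2,1,3],[[3,1,0,2],[0,1,2],[2,1,3,0],[2,1,3]]),(193,[0,2,1,3],[[3,1,0,2],[0,1,2],[2,1,3,0],[2,1,4]]),(193,[0,2,1,3],[[3,1,0,2],[0,1,2],[2,1,3,4],[2,1,0]]),(193,[0,2,1,3],[[0,1,3,2],[0,1,2],[0,1,2,4],[0,1,2]]),(193,[0,2,1,3],[[0,1,3,2],[0,1,2],[0,1,2,4],[0,1,3]]),(193,[0,2,1,3],[[0,1,3,2],[0,1,2],[0,1,2,4],[0,1,4]]),(193,[2,3,0,1],[[1,0,3],[1,2,0],[1,3,0,2],[1,2,0,3]]),(193,[0,2,1,3],[[0,1,2,3],[3,1,0],[2,1,3,0],[0,1,2]]),(193,[0,2,1,3],[[0,1,2,3],[3,1,0],[2,1,3,0],[0,1,3]]),(193,[0,2,1,3],[[0,1,2,3],[3,1,0],[2,1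,3,0],[0,1,4]]),(193,[2,3,0,1],[[1,0,3],[1,2,0],[1,3,4,2],[1,2,0,3]]),(193,[0,2,1,3],[[0,1,2,3],[0,1,2],[0,1,2,4],[0,1,2]]),(193,[0,2,1,3],[[0,1,2,3],[0,1,2],[0,1,2,4],[0,1,3]]),(193,[0,2,1,3],[[0,1,2,3],[0,1,2],[0,1,2,4],[0,1,4]]),(193,[0,2,1,3],[[3,1,0,4],[0,1,2],[2,1,3,0],[2,1,0]]),(193,[0,2,1,3],[[0,1,2,4],[3,1,0],[2,1,3,0],[0,1,2]]),(193,[0,2,1,3],[[3,1,0,4],[0,1,2],[2,1,3,0],[2,1,3]]),(193,[0,2,1,3],[[3,1,0,4],[0,1,2],[2,1,3,0],[2,1,4]]),(193,[0,2,1,3],[[3,1,0,4],[0,1,2],[2,1,3,4],[2,1,0]]),(193,[0,2,1,3],[[0,1,2,4],[0,1,2],[0,1,2,4],[0,1,2]]),(193,[0,2,1,3],[[0,1,2,4],[0,1,2],[0,1,2,4],[0,1,3]]),(193,[0,2,1,3],[[0,1,2,4],[0,1,2],[0,1,2,4],[0,1,4]])]),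
([4,4,4,4],[(0,0),(1,1),(0,2),(2,2),(0,1),(2,1)],[(193,[0,2,1,3],[[1,2,3,0],[1,2,0],[1,2,0,3],[1,0,2]]),(217,[0,1,2,3],[[3,2,1,0],[0,2,1],[3,2,1],[1,0,3]]),(193,[0,2,1,3],[[1,2,3,0],[1,2,0],[1,2,4,3],[1,0,2]]),(193,[0,2,1,3],[[1,2,4,0],[1,2,0],[1,2,0,3],[1,0,2]]),(217,[0,1,2,3],[[4,2,1,3],[0,2,1],[3,2,1],[1,0,2]]),(193,[0,2,1,3],[[1,2,4,0],[1,2,0],[1,2,4,3],[1,0,2]]),(234,[0,2,1,3],[[0,1,2,3],[3,1,0,2],[2,1,3,0],[0,1,2,3]]),(227,[0,1,2,3],[[4,1,2,3,0],[0,1,2,3],[3,1,2],[0,1,2]]),(193,[0,2,1,3],[[1,0,3,2],[1,0,2],[1,2,0,3],[1,3,0]]),(193,[0,1,2,3],[[1,3,4,0],[1,0,2,3],[1,2,0],[1,2,0]]),(193,[0,1,2,3],[[1,2,3,0],[1,2,3,0],[1,2,0],[1,0,3]]),(193,[0,1,2,3],[[1,2,3,0],[1,2,4,0],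[1,2,0],[1,0,3]]),(193,[0,1,2,3],[[1,2,4,3],[1,2,3,0],[1,2,0],[1,0,2]]),(193,[0,1,2,3],[[1,2,4,3],[1,2,4,0],[1,2,0],[1,0,2]]),(217,[0,1,2,3],[[3,0,1,2],[2,0,1],[3,2,1],[1,3,0]]),(193,[0,2,1,3],[[1,0,3,2],[1,0,2],[1,2,4,3],[1,3,0]]),(193,[0,1,2,3],[[1,2,3,0],[1,2,3,0],[1,2,3],[1,0,3]]),(193,[0,1,2,3],[[1,2,3,0],[1,2,3,0],[1,2,4],[1,0,3]]),(193,[0,1,2,3],[[1,2,3,0],[1,2,4,0],[1,2,3],[1,0,3]]),(193,[0,1,2,3],[[1,2,3,0],[1,2,4,0],[1,2,4],[1,0,3]]),(193,[0,1,2,3],[[1,3,4,0],[1,0,2,3],[1,2,3],[1,2,0]]),(193,[0,1,2,3],[[1,3,4,0],[1,0,2,3],[1,2,4],[1,2,0]]),(193,[0,1,2,3],[[1,2,4,3],[1,2,3,0],[1,2,3],[1,0,2]]),(193,[0,1,2,3],[[1,2,4,3],[1,2,3,0],[1,2,4],[1,0,2]]),(193,[0,1,2,3],[[1,2,4,3],[1,2,4,0],[1,2,3],[1,0,2]]),(193,[0,1,2,3],[[1,2,4,3],[1,2,4,0],[1,2,4],[1,0,2]])]),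
([4,4,4,4],[(0,0),(3,1),(2,2),(0,1),(2,1),(1,1)],[(235,[0,1,2,3],[[0,1,2,3],[0,1,2,3],[0,1,2,3],[0,1,2,3]]),(235,[0,3,1,2],[[0,1,3,2],[0,1,2,3],[2,1,3,0],[3,1,0,2]]),(227,[0,1,2,3],[[4,1,2,3,0],[0,1,2,3],[3,1,2],[0,1,2]])]),
([4,4,4,3],[(3,0),(0,1),(3,2),(3,1),(1,1),(2,1)],[(236,[2,1,0,3],[[2,1,0,3],[2,1,0,3],[2,1,0,3],[0,1,2,3]]),(236,[0,1,2,3],[[0,1,2,3],[0,1,2,3],[0,1,2,3],[0,1,2,3]]),(233,[0,1,2,3],[[0,1,2,3],[0,1,2,3],[0,1,2],[0,1,2,3]]),(233,[0,1,2,3],[[0,1,2,3],[0,1,2,4],[0,1,2],[0,1,2,3]])]),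
([4,4,3,3],[(2,0),(0,1),(2,2),(2,1),(3,1),(1,1)],[(237,[0,1,2,3],[[0,1,2,3],[0,1,2,3],[0,1,2,3],[0,1,2]]),(237,[0,1,2,3],[[0,1,2,3],[0,1,2,3],[3,1,2,0],[0,1,2]]),(237,[1,0,2,3],[[3,1,0,2],[2,1,3,0],[3,1,2,0],[0,1,2]])]),
([4,4,3,3],[(3,0),(3,1),(3,2),(2,1),(0,1),(1,1)],[(233,[0,1,2,3],[[0,1,2,3],[0,1,2,3],[0,1,2],[0,1,2,3]]),(238,[2,1,3,0],[[0,1,2],[3,1,0,2],[2,1,0],[0,1,3,2]])]),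
([4,4,3,3],[(3,0),(1,1),(2,2),(2,1),(3,1),(0,1)],[(238,[0,1,2,3],[[0,1,2,3],[0,1,2,3],[0,1,2],[0,1,2]]),(237,[0,1,2,3],[[0,1,2,3],[0,1,2,3],[0,1,2,3],[0,1,2]]),(239,[0,1,2,3],[[0,1,2,3],[0,1,2,3],[0,1,2],[0,1,2]])]),
([4,4,4,3],[(3,0),(0,1),(2,2),(3,1),(2,1),(1,1)],[(240,[0,1,2,3],[[0,1,3,2],[2,1,0,3],[0,1,2],[2,1,0]]),(240,[0,1,2,3],[[0,1,3,2],[2,1,0,3],[3,1,2],[2,1,0]]),(240,[0,1,2,3],[[0,1,3,2],[2,1,0,3],[4,1,2],[2,1,0]]),(240,[1,0,2,3],[[2,1,0,3],[0,1,3,2],[0,1,2],[2,1,0]]),(240,[1,0,2,3],[[2,1,0,3],[0,1,3,2],[3,1,2],[2,1,0]]),(240,[1,0,2,3],[[2,1,0,3],[0,1,3,2],[4,1,2],[2,1,0]])]),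
([4,4,3,3],[(2,0),(0,1),(2,2),(2,1),(3,1),(1,1)],[(240,[0,1,2,3],[[0,1,3,2],[2,1,0,3],[3,1,2],[2,1,0]]),(241,[0,1,2,3],[[0,1,2,3],[0,1,2,3],[0,1,2,3],[0,1,2]]),(240,[1,0,2,3],[[2,1,0,3],[0,1,3,2],[3,1,2],[2,1,0]]),(233,[0,1,3,2],[[3,1,2,0],[0,1,2,3],[2,1,0,3],[2,1,0]])]),
([4,4,3,3],[(2,0),(3,1),(2,2),(2,1),(0,1),(1,1)],[(233,[0,1,3,2],[[0,1,2,3],[0,1,3,2],[0,1,2,3],[0,1,2]]),(242,[0,2,1,3],[[2,1,3,0],[3,1,0],[0,1,2,3],[2,1,0]]),(242,[0,2,1,3],[[2,1,0,3],[2,1,0],[2,1,0,3],[0,1,2]]),(233,[0,2,1,3],[[2,1,0,3],[2,1,0],[2,1,0,3],[0,1,2,3]]),(233,[0,1,3,2],[[3,1,2,0],[0,1,2,3],[2,1,0,3],[2,1,0]])]),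
([4,4,4,3],[(1,0),(0,1),(2,2),(1,1),(2,1),(3,1)],[(233,[0,1,3,2],[[3,1,2,0],[0,1,3,2],[2,1,3,0],[2,1,0]]),(233,[0,1,3,2],[[3,1,2,0],[0,1,2,3],[2,1,3,0],[2,1,0]]),(233,[0,1,3,2],[[3,1,2,0],[0,1,2,4],[2,1,3,0],[2,1,0]]),(233,[0,1,3,2],[[3,1,2,0],[0,1,3,2],[2,1,0,3],[2,1,0]]),(233,[0,1,3,2],[[3,1,2,0],[0,1,3,2],[2,1,0,4],[2,1,0]]),(233,[0,1,3,2],[[3,1,2,0],[0,1,2,3],[2,1,0,3],[2,1,0]]),(233,[0,1,3,2],[[3,1,2,0],[0,1,2,3],[2,1,0,4],[2,1,0]]),(233,[0,1,3,2],[[3,1,2,0],[0,1,2,4],[2,1,0,3],[2,1,0]]),(233,[0,1,3,2],[[3,1,2,0],[0,1,2,4],[2,1,0,4],[2,1,0]])]),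
([4,4,3,3],[(2,0),(1,1),(2,2),(2,1),(3,1),(0,1)],[(244,[0,1,2,3],[[0,1,2,3],[0,1,2,3],[0,1,2,3],[0,1,2]]),(240,[0,2,1,3],[[2,1,0,3],[2,1,0],[2,1,0,3],[0,1,2]]),(242,[0,2,1,3],[[2,1,0,3],[2,1,0],[2,1,0,3],[0,1,2]]),(233,[0,2,1,3],[[2,1,0,3],[2,1,0],[2,1,0,3],[0,1,2,3]]),(240,[0,3,1,2],[[3,1,0,2],[0,1,2],[2,1,0,3],[2,1,0]]),(227,[0,2,1,3],[[2,1,0,3,4],[2,1,0],[2,1,0,3],[0,1,2]]),(233,[0,1,3,2],[[3,1,2,0],[0,1,3,2],[2,1,0,3],[2,1,0]]),(233,[0,1,3,2],[[3,1,2,0],[0,1,2,3],[2,1,0,3],[2,1,0]]),(233,[0,1,3,2],[[3,1,2,0],[0,1,2,4],[2,1,0,3],[2,1,0]])]),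
([4,3,3,3],[(1,0),(0,1),(1,2),(1,1),(2,1),(3,1)],[(240,[0,1,2,3],[[0,1,2,3],[0,1,2,3],[0,1,2],[0,1,2]]),(242,[0,1,2,3],[[0,1,2,3],[0,1,2,3],[0,1,2],[0,1,2]]),(233,[0,1,2,3],[[0,1,2,3],[0,1,2,3],[0,1,2],[0,1,2,3]]),(243,[0,1,2,3],[[0,1,2,3],[0,1,2,3],[0,1,2],[0,1,2]]),(242,[0,1,3,2],[[3,1,2,0],[0,1,2,3],[2,1,0],[2,1,0]]),(240,[0,1,3,2],[[3,1,2,0],[0,1,2,3],[2,1,0],[2,1,0]]),(233,[0,1,3,2],[[3,1,2,0],[0,1,2,3],[2,1,0,3],[2,1,0]]),(245,[0,1,2,3],[[0,1,2,3],[0,1,2,3],[0,1,2],[0,1,2]]),(227,[0,1,2,3],[[0,1,2,3,4],[0,1,2,3],[0,1,2],[0,1,2]])]),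
([3,3,3,2],[(3,0),(3,1),(0,1),(0,0),(0,2),(1,1)],[(217,[0,1,2,3],[[0,1,2,3],[0,1,2],[0,1,2],[0,1,2]]),(246,[0,1,2,3],[[0,1,2,3],[0,1,2],[0,1,2],[0,1,2]]),(246,[0,1,2,3],[[2,1,0,3],[2,1,0],[2,1,0],[0,1,2]]),(217,[0,1,2,3],[[2,1,0,3],[2,1,0],[2,1,0],[0,1,2]]),(193,[0,1,2,3],[[0,1,2,3],[0,1,2,3],[0,1,2],[0,1,2]])]),
([2,2,2,2],[(0,0),(0,1),(1,0),(1,1),(2,0),(2,1)],[(247,[0,1,2,3],[[0,1,2],[0,1,2],[0,1,2],[0,1]]),(247,[0,1,2,3],[[1,0,2],[1,0,2],[1,0,2],[1,0]])]),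
([1,1,1,1],[(0,0),(1,0),(2,0),(3,0)],[(248,[0,1,2,3],[[0,1],[0,1],[0,1],[0,1]])]),
([0,0,0,0],[],[(249,[0,1,2,3],[[0],[0],[0],[0]])])
]

/-- The data of a state. -/
def data (i : ℕ) : List ℕ × List (ℕ × ℕ) × List (ℕ × List ℕ × List (List ℕ)) := datas.getD i ([], [], [])

/-- The whole check. -/
theorem check : (List.range 251).all (fun i => okEntry 4 2 6 tbl i (data i).1 (data i).2.1 (data i).2.2) = true := by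
  decide +kernel

theorem root_empty : tbl 250 = [] := by
  decide +kernel

/-- The cover bound from the certificate. -/
theorem cover_bound {V : Type*} (H : Finset (Fin 4 → V)) (hH : MatchingNumberLE H 2) :
    ∃ C : Finset (Fin 4 × V), C.card ≤ 6 ∧ IsCover H C :=
  cover_of_certificate (by omega) tbl 251 250 data
    (fun i hi => by
      have := List.all_eq_true.mp check i (List.mem_range.mpr hi)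
      exact this)
    (by omega) root_empty H hH

end Vale.Agent.P045.R4N2
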